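import Vale.Agent.P287Q.Pub
import Vale.Agent.P287Q.Mf.Defs
import Vale.Agent.P287Q.Int.St
import Vale.Agent.P287Q.Lat.Defs

/-!
# The cubic fourfold in the internal vocabulary: entry and exit of the proof
-/

namespace Vale.Agent.P287Q.Cub

open Set MvPolynomial P291Z P269 Zc

/-- One block of coordinates. -/
abbrev π₀ (J : Type) : J → Unit := fun _ => ()

variable (F : MvPolynomial (Fin 6) ℂ)

/-- The cubic fourfold. -/
abbrev XF : Type := Spc (π₀ (Fin 6)) (Pub.cone F)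

/-- Its fundamental class. -/
noncomputable abbrev βF : BM (XF F) := Tq.fnd (scl (π₀ (Fin 6))) (Pub.cone F)

/-- Its hyperplane class. -/
noncomputable abbrev hyp : H (XF F) := Tq.lcq (scl (π₀ (Fin 6))) (Pub.cone F) fun t => t ()

/-- The classes of Hodge type `(p, q)`. -/
abbrev Hd (p q : ℕ) (c : H (XF F)) : Prop :=
  Mf.IsHd (fun x => (tn (Pub.cone F) x : Set (Fin 6 → ℂ))) (Quo.mk (scl (π₀ (Fin 6)))) p q c

/-- Mutually inverse rational maps `g : ℙ⁴ ⇢ X`, `h : X ⇢ ℙ⁴`, given by forms. -/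
structure Bir where
  /-- degree of `g` -/
  e : ℕ
  /-- degree of `h` -/
  m : ℕ
  /-- the parametrisation -/
  g : Fin 6 → MvPolynomial (Fin 5) ℂ
  /-- its inverse -/
  h : Fin 5 → MvPolynomial (Fin 6) ℂ
  /-- the factor of `h ∘ g` -/
  c : MvPolynomial (Fin 5) ℂ
  /-- the factor of `g ∘ h` -/
  c' : MvPolynomial (Fin 6) ℂ
  e_pos : 0 < e
  m_pos : 0 < m
  g_hom : ∀ i, (g i).IsHomogeneous e
  h_hom : ∀ j, (h j).IsHomogeneous m
  c_hom : c.IsHomogeneous (e * m - 1)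
  c'_hom : c'.IsHomogeneous (e * m - 1)
  c_ne : c ≠ 0
  on : ∀ y, eval (gv g y) F = 0
  hg : ∀ y, gv h (gv g y) = eval y c • y
  gh : ∀ x, eval x F = 0 → gv g (gv h x) = eval x c' • x

/-- A labelling of discriminant `d` with basis `h², v`. -/
def Lab (d : ℤ) : Prop :=
  ∃ (B : LinearMap.BilinForm ℤ (Lk (XF F) 4)) (η v : Lk (XF F) 4), IsForm (βF F) 4 B ∧ B.IsSymm ∧
    η.1 = hyp F ^ 2 ∧ B η η = 3 ∧ Hd F 2 2 η.1 ∧ Hd F 2 2 v.1 ∧
    Lat.Sat (Submodule.span ℤ {η, v}) ∧ d = 3 * B v v - B v η ^ 2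

/-- The integral classes of type `(2, 2)` are generated by two of them. -/
def Rk2 : Prop :=
  ∃ η v : Lk (XF F) 4, Hd F 2 2 η.1 ∧ Hd F 2 2 v.1 ∧
    ∀ x : Lk (XF F) 4, Hd F 2 2 x.1 → x ∈ Submodule.span ℤ {η, v}

/-- **The main theorem** in the internal vocabulary. -/
def Main : Prop := ∀ F : MvPolynomial (Fin 6) ℂ, F.IsHomogeneous 3 → Pub.IsSmoothForm F →
  Bir F → ∃ d, Lab F d ∧ Lat.Adm d ∧ (6 < d ∨ Rk2 F)

/-- `C_2` and `C_6` are empty. -/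
def D26 : Prop := ∀ F : MvPolynomial (Fin 6) ℂ, F.IsHomogeneous 3 → Pub.IsSmoothForm F →
  ¬Lab F 2 ∧ ¬Lab F 6

end Vale.Agent.P287Q.Cub
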