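import Vale.Agent.P287Q.Cub.N0
import Vale.Agent.P269.Hdx.EE
import Vale.Agent.P269.Hdg.ExO

/-!
# P287, Hodge numbers of complete intersections and of the cubic fourfold
-/

set_option linter.unusedSectionVars false
set_option linter.style.haveILetI false

namespace Vale.Agent.P287Q.Cub

open Set Function Topology Filter Module MvPolynomial P291Z P269 P269.Holo P269.Mono P269.Coh
  P269.Tq P269.Hdg Hb

theorem N1_two (N : ℕ) (r : ℤ) : hp N {2} r = if 0 ≤ r ∧ 2 * r = N - 1 then 1 else 0 :=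
  hp_quad (fun _ h => by simp_all) rfl r

theorem N1_three (N : ℕ) (r : ℤ) : hp (N + 1) {3} r = hp (N + 1) {2} r + hp N {2} r +
    hp N {2} (r - 1) + hp N {2, 3} (r - 1) + if N = 0 ∧ r = 0 then 1 else 0 := by
  have h := hp_add (N := N + 1) (d := 0) (a := 1) (b := 2) r
  rw [hp_one, hp_zero, show (0 + {1, 2} : Multiset ℕ) = {2} + {1} by decide,
    show (0 + {1, 2, 1 + 2} : Multiset ℕ) = {2, 3} + {1} by decide, hp_one, hp_one, hp_one] at h
  simpa [Hdg.dm] using h

theorem N1_six (N : ℕ) (r : ℤ) : hp (N + 2) {2, 3} r = 2 * hp (N + 1) {3} r + hp N {3} r +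
    hp N {3} (r - 1) + hp N {2, 3} (r - 1) + if N = 0 ∧ r = 0 then 1 else 0 := by
  have h := hp_add (N := N + 2) (d := {3}) (a := 1) (b := 1) r
  rw [hp_one, show ({3} + {1, 1} : Multiset ℕ) = {3} + {1} + {1} by decide,
    show ({3} + {1, 1, 1 + 1} : Multiset ℕ) = {2, 3} + {1} + {1} by decide,
    show ({3} + {1 + 1} : Multiset ℕ) = {2, 3} by decide] at h
  simp only [hp_one] at h
  rw [h, two_mul]
  congr 1
  refine if_congr (and_congr_left fun _ => ?_) rfl rfl
  simp only [Hdg.dm, Multiset.card_singleton]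
  omega

/-- The primitive Hodge numbers of the cubic fourfold. -/
theorem hp_cubic (r : ℤ) : hp 5 {3} r = if r = 2 then 20 else if r = 1 ∨ r = 3 then 1 else 0 := by
  have h0 : ∀ r, hp 0 {3} r = 0 := hp_of_dm_neg (by decide)
  have h1 : ∀ r, hp 0 {2, 3} r = 0 := hp_of_dm_neg (by decide)
  have h2 : ∀ r, hp 1 {2, 3} r = 0 := hp_of_dm_neg (by decide)
  have h3 : ∀ r, hp 1 {3} r = if r = 0 then 2 else 0 := fun r => by
    rw [N1_three 0, N1_two, N1_two, N1_two, h1]; split_ifs <;> omega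
  have h4 : ∀ r, hp 2 {2, 3} r = if r = 0 then 5 else 0 := fun r => by
    rw [N1_six 0, h3, h0, h0, h1]; split_ifs <;> omega
  have h5 : ∀ r, hp 2 {3} r = if r = 0 ∨ r = 1 then 1 else 0 := fun r => by
    rw [N1_three 1, N1_two, N1_two, N1_two, h2]; split_ifs <;> first | omega | simp_all
  have h6 : ∀ r, hp 3 {3} r = if r = 1 then 6 else 0 := fun r => by
    rw [N1_three 2, N1_two, N1_two, N1_two, h4]; split_ifs <;> first | omega | simp_all
  have h7 : ∀ r, hp 4 {2, 3} r = if r = 1 then 19 else if r = 0 ∨ r = 2 then 1 else 0 := fun r => by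
    rw [N1_six 2, h6, h5, h5, h4]; split_ifs <;> first | omega | simp_all
  rw [N1_three 4, N1_two, N1_two, N1_two, h7]
  split_ifs <;> first | omega | simp_all

variable {N : ℕ} {A : Type} [NormedRing A] [NormedAlgebra ℂ A] [FiniteDimensional ℂ A]
  {ι : Type} [Fintype ι] [DecidableEq ι] {F : ι → MP N} {d : ι → ℕ} {n : ℕ}
  {act : A → E N → E N} [IsAct act univ] {χ : A → ℂ}

namespace Sc

variable (s : Sc act χ) (h : IsCI F d) (hn : n + Fintype.card ι = N)
include h hn

theorem mem_QT {p q : ℕ} {c : H (Quo act (cone F))} : c ∈ QT act (cone F) p q ↔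
    c ∈ FH h s.isProj true p (p + q) ∧ c ∈ FH h s.isProj false q (p + q) := by
  rw [QT, HT_nat, mem_HN_iff h hn]
  exact ⟨fun k => ⟨k.mem_FH h _ true, k.mem_FH h _ false⟩,
    fun k => Hdx.isHodge_of_FH h _ rfl k.1 k.2⟩

include s

theorem exists_basis : ∃ (B : ℕ) (φ : Basis (Fin B) ℂ (H (Quo act (cone F)))) (p q : Fin B → ℕ),
    ∀ a, IsHodge F (Quo.mk act) (p a) (q a) (φ a) :=
  Hdx.exists_basis h s.isProj hn (fun _ _ e => Ex.FH_disjoint h hn s.isProj e) (s.is11 h hn)
    fun e => s.J_pow_ne h hn (by rw [e, map_zero])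

theorem h_mem : lcq act (cone F) χ ∈ QT act (cone F) 1 1 :=
  (s.mem_QT h hn (p := 1) (q := 1)).2 ⟨s.is11 h hn true, s.is11 h hn false⟩

theorem QT_mul {p q p' q' : ℤ} {a b : H (Quo act (cone F))} (ha : a ∈ QT act (cone F) p q)
    (hb : b ∈ QT act (cone F) p' q') : a * b ∈ QT act (cone F) (p + p') (q + q') := by
  by_cases e : 0 ≤ p ∧ 0 ≤ q
  swap
  · rw [QT, HT, if_neg e] at ha
    rw [ha, zero_mul]; exact zero_mem _
  by_cases e' : 0 ≤ p' ∧ 0 ≤ q'
  swap
  · rw [QT, HT, if_neg e'] at hb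
    rw [hb, mul_zero]; exact zero_mem _
  lift p to ℕ using e.1
  lift q to ℕ using e.2
  lift p' to ℕ using e'.1
  lift q' to ℕ using e'.2
  rw [s.mem_QT h hn] at ha hb
  rw [← Nat.cast_add, ← Nat.cast_add, s.mem_QT h hn, Nat.cast_add, Nat.cast_add,
    add_add_add_comm]
  exact ⟨FH_mul ha.1 hb.1, FH_mul ha.2 hb.2⟩

theorem h_pow_mem (m : ℕ) : lcq act (cone F) χ ^ m ∈ QT act (cone F) m m :=
  (s.mem_QT h hn).2 (two_mul (m : ℤ) ▸ ⟨FH_pow (s.is11 h hn true) m, FH_pow (s.is11 h hn false) m⟩)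

theorem finrank_QT {B : ℕ} (φ : Basis (Fin B) ℂ (H (Quo act (cone F)))) {p q : Fin B → ℕ}
    (hφ : ∀ a, IsHodge F (Quo.mk act) (p a) (q a) (φ a)) (i j : ℕ) :
    finrank ℂ (QT act (cone F) i j) = (Finset.univ.filter fun a => p a = i ∧ q a = j).card := by
  have e : QT act (cone F) i j =
      Submodule.span ℂ (φ '' (Finset.univ.filter fun a => p a = i ∧ q a = j)) := by
    rw [QT, HT_nat]
    refine le_antisymm (fun c hc => φ.mem_span_image.2 fun a ha => ?_) (Submodule.span_le.2 ?_)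
    · simpa using repr_hodge h s.isProj hn φ hφ (fun k c hk hc => (s.qm h hn).pd.deg k hk c hc)
        (fun x hx => (s.qm h hn).ps.ext_left fun y => by rw [zero_mul, map_zero]; exact hx y)
        ((mem_HN_iff h hn).1 hc) (Finsupp.mem_support_iff.1 ha)
    · rintro _ ⟨a, ha, rfl⟩
      obtain ⟨rfl, rfl⟩ := (Finset.mem_filter.1 ha).2
      exact (mem_HN_iff h hn).2 (hφ a)
  rw [e, image_eq_range]
  exact (finrank_span_eq_card (φ.linearIndependent.comp _ Subtype.val_injective)).trans (by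
    simp [Fintype.card_subtype])

/-- **The Hodge numbers in the middle degree.** -/
theorem finrank_mid {i j : ℕ} (e : i + j = n) : (finrank ℂ (QT act (cone F) i j) : ℤ) =
    hp N (Finset.univ.val.map d) i + if 2 * i = n then 1 else 0 := by
  obtain ⟨B, φ, p, q, hφ⟩ := s.exists_basis h hn
  rw [s.finrank_QT h hn φ hφ, ← card_mid h s.isProj hn φ hφ
    (fun k c hk hc => (s.qm h hn).pd.deg k hk c hc)
    (fun x hx => (s.qm h hn).ps.ext_left fun y => by rw [zero_mul, map_zero]; exact hx y)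
    (s.hb h hn)]
  exact congrArg _ (congrArg _ (Finset.filter_congr fun a _ => by omega))

/-- Outside the middle degree only the types `(j, j)` occur. -/
theorem QT_off {i j : ℕ} (e : i + j ≠ n) (e' : i ≠ j) : QT act (cone F) i j = ⊥ := by
  obtain ⟨B, φ, p, q, hφ⟩ := s.exists_basis h hn
  haveI := (s.qm h hn).pd.fin
  rw [← Submodule.finrank_eq_zero, s.finrank_QT h hn φ hφ, Finset.card_eq_zero,
    Finset.filter_eq_empty_iff]
  rintro a - ⟨rfl, rfl⟩
  exact e' (type_eq h s.isProj hn φ hφ (fun k c hk hc => (s.qm h hn).pd.deg k hk c hc)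
    (fun x hx => (s.qm h hn).ps.ext_left fun y => by rw [zero_mul, map_zero]; exact hx y) e)

/-- The Hodge structure of a complete intersection. -/
theorem hg (hc : ∀ p q, ∀ c ∈ QT act (cone F) p q, cj c ∈ QT act (cone F) q p) :
    HG (s.qm h hn).ps (QT act (cone F)) := by
  have k : ∀ p q : ℤ, p < 0 ∨ q < 0 → QT act (cone F) p q = ⊥ := fun p q e => if_neg (by omega)
  refine ⟨fun p q c e => ?_, pow_zero (lcq act (cone F) χ) ▸ s.h_pow_mem h hn 0,
    fun _ _ _ _ _ ha _ hb => s.QT_mul h hn ha hb, fun p q e => ?_, fun c => ?_, hc⟩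
  · by_cases e' : p < 0 ∨ q < 0
    · rw [k p q e'] at e
      exact e ▸ (H.deg _ _).zero_mem
    lift p to ℕ using by omega
    lift q to ℕ using by omega
    exact FH_deg ((s.mem_QT h hn).1 e).1
  · by_cases e' : p < 0 ∨ q < 0
    · exact k p q e'
    lift p to ℕ using by omega
    lift q to ℕ using by omega
    change _ ∨ _ ∨ (n : ℤ) < _ ∨ (n : ℤ) < _ at e
    refine eq_bot_iff.2 fun c hc => ?_
    rw [s.mem_QT h hn] at hc
    by_cases e1 : (n : ℤ) < p
    · exact FH_big (by omega) hc.1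
    · exact FH_big (by omega) hc.2
  · obtain ⟨B, φ, p, q, hφ⟩ := s.exists_basis h hn
    rw [← φ.sum_repr c]
    exact sum_mem fun a _ => Submodule.smul_mem _ _ (Submodule.mem_iSup_of_mem (p a, q a)
      ((HT_nat _ _ _ _).ge ((mem_HN_iff h hn).2 (hφ a))))

end Sc

/-- The equation of a smooth cubic fourfold. -/
structure Cb (F : ι → MP 5) : Prop where
  ci : IsCI F fun _ => 3
  card : Fintype.card ι = 1

namespace Cb

variable {F : ι → MP 5} (c : Cb F) {act : A → E 5 → E 5} [IsAct act univ] (s : Sc act χ)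
include c

theorem hn : 4 + Fintype.card ι = 5 := by rw [c.card]

theorem map_eq : Finset.univ.val.map (fun _ : ι => 3) = {3} := by
  rw [Multiset.map_const', ← Finset.card_def, Finset.card_univ, c.card]; rfl

include s

theorem qm : QM act (cone F) 4 := s.qm c.ci c.hn

theorem J_pow : (c.qm s).ps.J (lcq act (cone F) χ ^ 4) = 3 := by
  refine (s.J_pow c.ci c.hn).trans ?_
  rw [Finset.prod_const, Finset.card_univ, c.card, pow_one, Nat.cast_ofNat]

theorem lf : Lf (c.qm s).ps (lcq act (cone F) χ) := s.lf c.ci c.hn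

theorem fin {i j : ℕ} (e : i + j = 4) : finrank ℂ (QT act (cone F) i j) =
    if i = 2 then 21 else if i = 1 ∨ i = 3 then 1 else 0 := by
  have := s.finrank_mid c.ci c.hn e
  rw [c.map_eq, hp_cubic] at this
  split_ifs at this ⊢ <;> omega

theorem h22 : finrank ℂ (QT act (cone F) 2 2) = 21 := c.fin s (i := 2) (j := 2) rfl

theorem h31 : finrank ℂ (QT act (cone F) 3 1) = 1 := c.fin s (i := 3) (j := 1) rfl

theorem h13 : finrank ℂ (QT act (cone F) 1 3) = 1 := c.fin s (i := 1) (j := 3) rfl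

theorem h40 : QT act (cone F) 4 0 = ⊥ :=
  haveI := (c.qm s).pd.fin
  Submodule.finrank_eq_zero.1 (c.fin s (i := 4) (j := 0) rfl)

theorem h04 : QT act (cone F) 0 4 = ⊥ :=
  haveI := (c.qm s).pd.fin
  Submodule.finrank_eq_zero.1 (c.fin s (i := 0) (j := 4) rfl)

theorem h20 : QT act (cone F) 2 0 = ⊥ := s.QT_off c.ci c.hn (i := 2) (j := 0) (by simp) (by simp)

theorem h02 : QT act (cone F) 0 2 = ⊥ := s.QT_off c.ci c.hn (i := 0) (j := 2) (by simp) (by simp)

theorem h42 : QT act (cone F) 4 2 = ⊥ := s.QT_off c.ci c.hn (i := 4) (j := 2) (by simp) (by simp)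

/-- The middle Betti number. -/
theorem b4 : finrank ℂ (H.deg (Quo act (cone F)) 4) = 23 := by
  have h1 := Hdg.finrank_mid c.ci s.isProj c.hn (s.hb c.ci c.hn)
  have h2 := card_ms (N := 5) c.ci.pos_map
  rw [card_eig, c.map_eq] at h1
  rw [c.map_eq, show dm 5 {3} = 4 from rfl] at h2
  simp only [hp_cubic] at h2
  have h3 : ((ms 5 {3}).card : ℤ) = 22 := h2.trans (by decide)
  exact h1.trans (by rw [show (ms 5 {3}).card = 22 by omega]; rfl)

end Cb

end Vale.Agent.P287Q.Cub
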