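import Vale.Agent.P287Q.Hb.Defs
import Vale.Agent.P269.Coh.Lf
import Vale.Agent.P269.Hdg.PrimGeo

/-!
# P287, complete intersections as orbit spaces: degree and Lefschetz property
-/

set_option linter.unusedSectionVars false
set_option linter.style.haveILetI false

namespace Vale.Agent.P287Q.Cub

open Set Function Topology Filter Module MvPolynomial P291Z P269 P269.Holo P269.Mono P269.Coh
  P269.Tq P269.Hdg

variable {N : ℕ} {A : Type} [NormedRing A] [NormedAlgebra ℂ A] [FiniteDimensional ℂ A]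

/-- `act` is the scalar action through the character `χ`. -/
structure Sc (act : A → E N → E N) (χ : A → ℂ) : Prop where
  hm : Tq.Hm χ
  eq : ∀ a, IsUnit a → ∀ x, act a x = χ a • x
  surj : ∀ t : ℂ, t ≠ 0 → ∃ a, IsUnit a ∧ χ a = t
  fp : FP act {0}ᶜ
  dim : finrank ℂ A = 1

theorem N0_isAct {J R : Type} [Fintype J] [Fintype R] (π : J → R) : IsAct (scl π) univ :=
  ⟨fun x _ => funext fun j => one_mul (x j), fun _ _ _ _ _ _ => funext fun _ => mul_assoc _ _ _,
    fun _ _ _ _ => trivial, fun _ _ _ _ => analyticAt_pi_iff.2 fun j =>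
      (((ContinuousLinearMap.proj (π j) : (R → ℂ) →L[ℂ] ℂ).analyticAt _).comp analyticAt_fst).mul
        (((ContinuousLinearMap.proj j : (J → ℂ) →L[ℂ] ℂ).analyticAt _).comp analyticAt_snd)⟩

theorem N0_fp {act : A → E N → E N} [IsAct act univ] {χ : A → ℂ}
    (eq : ∀ a, IsUnit a → ∀ x, act a x = χ a • x) (h0 : ∀ a, IsUnit a → χ a ≠ 0)
    (h1 : ∀ a, χ a = 1 → a = 1) (h2 : ∀ a, ‖a‖ = ‖χ a‖) : FP act {0}ᶜ := by
  refine fp_of (fun a ha x hx => eq a ha x ▸ smul_ne_zero (h0 a ha) hx)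
    isOpen_compl_singleton.isLocallyClosed
    (fun a ha x hx e => h1 a (smul_left_injective ℂ hx
      ((eq a ha x).symm.trans (e.trans (one_smul ℂ x).symm))))
    fun x a x₀ x₁ ha _ h3 _ h5 h6 h7 => ?_
  have h8 := norm_ne_zero_iff.2 h3
  refine not_tendsto_atTop_of_tendsto_nhds ((h6.norm.div h5.norm h8).congr'
    ((h5.norm.eventually_ne h8).mono fun n hn => ?_)) h7
  simp only [Pi.div_apply, eq _ (ha n), norm_smul, h2]
  rw [mul_div_cancel_right₀ _ hn]

/-- The model of the multicones with one block. -/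
theorem sc_scl (π : Fin (N + 1) → Unit) : Sc (scl π) fun t => t () :=
  haveI := N0_isAct π
  ⟨⟨rfl, fun _ _ _ _ => rfl, fun _ _ => (continuous_apply ()).continuousAt⟩, fun _ _ _ => rfl,
    fun t ht => ⟨fun _ => t, Pi.isUnit_iff.2 fun _ => ht.isUnit, rfl⟩,
    N0_fp (χ := fun t => t ()) (fun _ _ _ => rfl) (fun _ ha => (Pi.isUnit_iff.1 ha ()).ne_zero)
      (fun _ e => funext fun _ => e) fun a => by rw [Pi.norm_def]; simp, by simp⟩

/-- The model with scalars. -/
theorem sc_smul {act : ℂ → E N → E N} [IsAct act univ] (e : ∀ a x, act a x = a • x) :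
    Sc act fun t => t :=
  ⟨Tq.Hm.id, fun a _ => e a, fun t ht => ⟨t, ht.isUnit, rfl⟩,
    N0_fp (χ := fun t => t) (fun a _ => e a) (fun _ ha => ha.ne_zero) (fun _ e => e) fun _ => rfl,
    finrank_self ℂ⟩

theorem N0_intg_one {W : Type} [NormedAddCommGroup W] [NormedSpace ℂ W] [FiniteDimensional ℂ W]
    {act : A → W → W} {S : Set W} [IsAct act univ] [FP act S] (h : Dim act S 0) (x : S)
    [Subsingleton (Quo act S)] : Loc.intg (fnd act S) 1 = 1 := by
  have := (inferInstance : FP act S).lc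
  obtain ⟨φ, a, -⟩ := h.holOrb.slice (Sp.of act x.1 x.2)
  rw [← hcls_one, Loc.intg_hcls _ cocycle_one, ← one_mul (P291Z.ev _ _)]
  exact (h.isFund.val a (FP.free _)).2 1 1 cocycle_one (fun _ _ => Subsingleton.elim _ _)
    (by rw [map_one, ← tau_zero]; exact Orb.locCo_tau)

variable {ι : Type} [Fintype ι] [DecidableEq ι] {F : ι → MP N} {d : ι → ℕ} {n : ℕ}

theorem fderiv_F (x v : E N) (i : ι) :
    fderiv ℂ (fun y : E N => fun i => eval y (F i)) x v i = dEval (F i) x v := by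
  rw [(hasFDerivAt_pi.2 fun i => hasFDerivAt_eval (F i) x).fderiv]; rfl

theorem an_F (x : E N) : AnalyticAt ℂ (fun y : E N => fun i => eval y (F i)) x :=
  analyticAt_pi_iff.2 fun i => analyticAt_eval (F i) x

theorem fderiv_surj (h : IsCI F d) {x : E N} (hx : x ∈ cone F) (w : ι → ℂ) :
    ∃ v, fderiv ℂ (fun y : E N => fun i => eval y (F i)) x v = w := by
  obtain ⟨V, hV⟩ := exists_dual_at h hx
  exact ⟨∑ j, w j • V j, funext fun i => by simp [fderiv_F, hV]⟩

theorem tan_top {x : E N} (hx : x ∈ ({0}ᶜ : Set (E N))) (v : E N) :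
    v ∈ tan (Subtype.val : ({0}ᶜ : Set (E N)) → E N) ⟨x, hx⟩ := fun Φ _ h2 => by
  have h3 : Φ =ᶠ[𝓝 x] fun _ => 0 :=
    ((ev_sub hx (p := fun s => Φ s = 0)).1 h2).mp
      ((isOpen_compl_singleton.eventually_mem hx).mono fun _ a b => b a)
  rw [h3.fderiv_eq]
  simp

theorem mem_cone (x : E N) :
    x ∈ cone F ↔ x ∈ ({0}ᶜ : Set (E N)) ∧ (fun i => eval x (F i)) = 0 :=
  and_congr_right fun _ => funext_iff.symm

theorem cone_sub : cone F ⊆ {0}ᶜ := fun _ hx => hx.1

theorem mfd_open {x : E N} (hx : x ∈ ({0}ᶜ : Set (E N))) : MfdAt {0}ᶜ (N + 1) x := by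
  simpa using (MfdAt.univ x).congr ((isOpen_compl_singleton.eventually_mem hx).mono fun _ a =>
    ⟨fun _ => a, fun _ => trivial⟩)

/-- The tangent spaces of the cone. -/
theorem tn_cone (h : IsCI F d) (hn : n + Fintype.card ι = N) {x : E N} (hx : x ∈ cone F) :
    (tn (cone F) x : Set (E N)) = tang F x := by
  have h1 := (IsMfd.sub (ι := (Subtype.val : ({0}ᶜ : Set (E N)) → E N)) (n := n + 1)
    (j := inclusion cone_sub) (IsEmbedding.inclusion _) (z := ⟨x, hx⟩) (mfd_open hx.1).2 (an_F x)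
    (fun w => (fderiv_surj h hx w).imp fun v e => ⟨tan_top _ v, e⟩)
    (.of_forall fun y => ⟨fun ⟨z, k⟩ => k ▸ ((mem_cone _).1 z.2).2,
      fun k => ⟨⟨y, (mem_cone _).2 ⟨y.2, k⟩⟩, rfl⟩⟩) (by simp; omega)).2
  rw [tn_eq hx]
  refine Set.ext fun v => ((SetLike.ext_iff.1 h1 v).trans (and_iff_right (tan_top hx.1 v))).trans
    (funext_iff.trans (forall_congr' fun i => ?_))
  exact Eq.congr_left ((fderiv_F x v i).trans (dEval_apply _ _ _))

theorem mem_HN_iff (h : IsCI F d) (hn : n + Fintype.card ι = N) {X : Type} [TopologicalSpace X]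
    {π : cone F → X} {p q : ℕ} {c : H X} : c ∈ Hb.HN (cone F) π p q ↔ IsHodge F π p q c :=
  exists_congr fun _ => and_congr_right fun _ => and_congr_right fun _ => forall_congr' fun x =>
    exists_congr fun _ => and_congr_right fun _ => and_congr_right fun _ => by
      simp only [tn_cone h hn x.2]; rfl

namespace Sc

variable {act : A → E N → E N} [IsAct act univ] {χ : A → ℂ} (s : Sc act χ)
include s

theorem ne {a : A} (ha : IsUnit a) : χ a ≠ 0 := (s.hm.isUnit ha).ne_zero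

theorem lin (a : A) (ha : IsUnit a) : IsLinearMap ℂ (act a) :=
  ⟨fun x y => by simp only [s.eq a ha, smul_add], fun c x => by simp only [s.eq a ha, smul_comm c]⟩

theorem mk_smul {S : Set (E N)} {x y : S} {t : ℂ} (ht : t ≠ 0) (e : t • x.1 = y.1) :
    Quo.mk act x = Quo.mk act y :=
  (s.surj t ht).elim fun a ha => Quot.sound ⟨a, ha.1, by rw [s.eq a ha.1, ha.2, e]⟩

theorem isProj : IsProj (Quo.mk act : cone F → Quo act (cone F)) :=
  ⟨isQuotientMap_quot_mk, fun x y => ⟨fun e => (QMA.mk_eq e).elim fun a ha =>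
    ⟨χ a, (s.eq a ha.1 _).symm.trans ha.2.symm⟩, fun ⟨t, e⟩ =>
      s.mk_smul (fun k => y.2.1 (by rw [← e, k, zero_smul])) e⟩⟩

/-- Projective space. -/
theorem qmP : QM act ({0}ᶜ : Set (E N)) N := by
  haveI := s.fp
  have e : Metric.sphere (0 : E N) 1 ⊆ {0}ᶜ := fun x hx h => by simp [mem_singleton_iff.1 h] at hx
  haveI : CompactSpace (Quo act ({0}ᶜ : Set (E N))) := by
    refine Surjective.compactSpace (continuous_mk.comp (continuous_inclusion e))
      (mk_surj.forall.2 fun x => ?_)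
    have h : (‖x.1‖ : ℂ) ≠ 0 := Complex.ofReal_ne_zero.2 (norm_ne_zero_iff.2 x.2)
    refine ⟨⟨(‖x.1‖ : ℂ)⁻¹ • x.1, ?_⟩, s.mk_smul h (smul_inv_smul₀ h _)⟩
    simp [norm_smul, inv_mul_cancel₀ (norm_ne_zero_iff.2 x.2)]
  exact .of_mfd s.lin fun x hx => ⟨N + 1, by rw [s.dim]; push_cast; ring, mfd_open hx⟩

theorem hm_pow (k : ℕ) : Tq.Hm fun a => χ a ^ k := by
  induction k with
  | zero => simpa using Tq.Hm.const
  | succ k ih => simpa only [pow_succ] using ih.mul' s.hm

theorem lcq_pow {S : Set (E N)} [FP act S] (k : ℕ) :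
    lcq act S (fun a => χ a ^ k) = (k : ℂ) • lcq act S χ := by
  induction k with
  | zero => simpa using lcq_one
  | succ k ih =>
    simp only [pow_succ, lcq_mul (s.hm_pow k) s.hm, ih, Nat.cast_succ, add_smul, one_smul]

theorem sec (h : IsCI F d) :
    Sec act {0}ᶜ (fun i a => χ a ^ d i) fun y : E N => fun i => eval y (F i) :=
  ⟨fun i => s.hm_pow (d i), fun x _ => (an_F x).continuousAt.continuousWithinAt,
    fun a ha x _ i => by rw [s.eq a ha, eval_smul_of_hom (h.hom i)]⟩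

/-- **A complete intersection is a compact complex manifold.** -/
theorem qm (h : IsCI F d) (hn : n + Fintype.card ι = N) : QM act (cone F) n :=
  (by omega : (N : ℤ) - Fintype.card ι = n) ▸ s.qmP.zero (s.sec h) mem_cone (fun x _ => an_F x)
    fun _ _ hx w => (fderiv_surj h hx w).imp fun v e => ⟨tan_top _ v, e⟩

theorem map_h (h : IsCI F d) (hn : n + Fintype.card ι = N) :
    H.map (qinc act cone_sub) (lcq act {0}ᶜ χ) = lcq act (cone F) χ :=
  haveI := s.fp
  haveI := (s.qm h hn).fp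
  (Eqh.incl cone_sub).map_lcq s.hm

theorem J_aux (h : IsCI F d) (hn : n + Fintype.card ι = N) :
    (s.qm h hn).ps.J (lcq act (cone F) χ ^ n) =
      (∏ i, (d i : ℂ)) * s.qmP.ps.J (lcq act {0}ᶜ χ ^ N) := by
  haveI := s.fp
  have h3 : ∏ i, lce act {0}ᶜ ((s.sec h).hm i) =
      (∏ i, (d i : ℂ)) • lce act {0}ᶜ s.hm ^ Fintype.card ι := by
    rw [← Finset.card_univ, ← Finset.prod_const, ← Finset.prod_smul]
    exact Finset.prod_congr rfl fun i _ => Subtype.ext (by
      rw [lce_val, s.lcq_pow, Subalgebra.coe_smul, lce_val])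
  rw [← s.map_h h hn, ← map_pow, ← one_mul (H.map _ _),
    ← PS.J_push_mul (X := (s.qm h hn).ps) (Y := s.qmP.ps), s.qmP.push_one (s.sec h) mem_cone
      (fun x _ => an_F x) (fun _ _ hx w => (fderiv_surj h hx w).imp fun v e => ⟨tan_top _ v, e⟩),
    h3, Subalgebra.coe_smul, Subalgebra.coe_pow, lce_val, smul_mul_assoc, ← pow_add, map_smul,
    (add_comm _ _).trans hn, smul_eq_mul]

theorem J_P : s.qmP.ps.J (lcq act {0}ᶜ χ ^ N) = 1 := by
  have h : IsCI (fun i : Fin N => (X i.succ : MP N)) fun _ => 1 :=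
    ⟨fun i => isHomogeneous_X _ _, fun _ => le_rfl, fun x _ => by
      refine Fintype.linearIndependent_iff.2 fun g e i => ?_
      simpa [pderiv_X, Pi.single_apply] using congrFun e i.succ⟩
  have hn : 0 + Fintype.card (Fin N) = N := by simp
  have h1 := s.J_aux h hn
  haveI := (s.qm h hn).fp
  have h2 : ∀ x : cone fun i : Fin N => (X i.succ : MP N), x.1 0 • Pi.single 0 1 = x.1 := fun x =>
    funext (Fin.cases (by simp) fun i => by simpa [eq_comm] using x.2.2 i)
  have h3 : Pi.single 0 1 ∈ cone fun i : Fin N => (X i.succ : MP N) := ⟨by simp, by simp⟩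
  have h4 := fun x => s.mk_smul (x := ⟨_, h3⟩) (y := x)
    (fun k => x.2.1 (by rw [← h2 x, k, zero_smul])) (h2 x)
  haveI : Subsingleton (Quo act (cone fun i : Fin N => (X i.succ : MP N))) :=
    ⟨mk_surj.forall₂.2 fun x y => (h4 x).symm.trans (h4 y)⟩
  rw [pow_zero, Nat.cast_one, Finset.prod_const_one, one_mul] at h1
  exact h1.symm.trans (N0_intg_one (s.qm h hn).dim ⟨_, h3⟩)

variable (h : IsCI F d) (hn : n + Fintype.card ι = N)

/-- **The degree.** -/
theorem J_pow : (s.qm h hn).ps.J (lcq act (cone F) χ ^ n) = ∏ i, (d i : ℂ) := by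
  rw [s.J_aux h hn, s.J_P, mul_one]

theorem J_pow_ne : (s.qm h hn).ps.J (lcq act (cone F) χ ^ n) ≠ 0 :=
  s.J_pow h hn ▸ Finset.prod_ne_zero_iff.2 fun i _ =>
    Nat.cast_ne_zero.2 (Nat.one_le_iff_ne_zero.1 (h.pos i))

include h hn in
theorem h_deg : H.IsDeg 2 (lcq act (cone F) χ) :=
  haveI := (s.qm h hn).fp
  lcq_deg s.hm

/-- **The Lefschetz theorem.** -/
theorem lf : Lf (s.qm h hn).ps (lcq act (cone F) χ) := by
  have h1 := s.J_pow_ne h hn
  refine ⟨s.h_deg h hn, fun k hk x hx => ?_, fun m hm => Nat.cast_injective hm ▸ h1⟩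
  rcases Int.even_or_odd k with ⟨j, rfl⟩ | e
  swap
  · exact deg_odd h s.isProj hn hk e hx ▸ zero_mem _
  by_cases h2 : j < 0
  · exact hx.eq_zero (by omega) ▸ zero_mem _
  by_cases h3 : (n : ℤ) < j
  · exact deg_big h s.isProj hn (by omega) hx ▸ zero_mem _
  lift j to ℕ using by omega
  obtain ⟨t, rfl⟩ := deg_smul h s.isProj hn hk
    (two_mul (j : ℤ) ▸ isDeg_pow (s.h_deg h hn) j) (fun e => h1 (by
      rw [pow_eq_zero_of_le (show j ≤ n by omega) e, map_zero])) hx
  exact Submodule.smul_mem _ _ (pow_mem_amb _ j)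

include h hn in
theorem hb (j : ℕ) (hj : j ≤ n) :
    ∃ c : H (Quo act (cone F)), H.IsDeg (2 * j : ℕ) c ∧ c ≠ 0 :=
  (s.lf h hn).exists_ne (j := j) (Nat.cast_le.2 hj)

include hn in
theorem is11 : Is11 h s.isProj (lcq act (cone F) χ) := by
  have h0 : IsCI (Empty.elim : Empty → MP N) Empty.elim :=
    ⟨fun j => j.elim, fun j => j.elim, fun _ _ => linearIndependent_empty_type⟩
  have e : cone F ⊆ cone (Empty.elim : Empty → MP N) := fun _ hx => ⟨hx.1, fun j => j.elim⟩
  haveI := (s.qm h hn).fp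
  haveI := (s.qm h0 (n := N) rfl).fp
  rw [← (Eqh.incl e).map_lcq s.hm]
  exact is11_of_amb h s.isProj s.isProj _ (fun _ => rfl) (lcq_deg s.hm)

include h hn in
/-- Without primitive cohomology all classes are polynomials in the hyperplane class. -/
theorem amb_of (h0 : eig N (Finset.univ.val.map d) = 0) (x : H (Quo act (cone F))) :
    x ∈ amb (lcq act (cone F) χ) := by
  haveI := (s.qm h hn).pd.fin
  have h1 := (s.lf h hn).finrank_van (m := n) rfl
  rw [finrank_mid h s.isProj hn (s.hb h hn), h0, add_right_inj, Multiset.card_zero, eq_comm,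
    Submodule.finrank_eq_zero] at h1
  obtain ⟨a, ha, v, hv, rfl⟩ := (s.lf h hn).exists_add x
  rwa [h1.le hv, add_zero]

include h hn in
/-- **The cohomology of projective space.** -/
theorem amb_P [IsEmpty ι] (x : H (Quo act (cone F))) : x ∈ amb (lcq act (cone F) χ) :=
  s.amb_of h hn (by rw [Finset.univ_eq_empty]; exact eig_zero) x

end Sc

end Vale.Agent.P287Q.Cub
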