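import Vale.Agent.P287Q.Cub.Rat
import Vale.Agent.P287Q.Pv.Top

/-!
# The smooth cubic and projective space as varieties
-/

set_option linter.unusedSectionVars false

namespace Vale.Agent.P287Q.Cub

open Set Topology Filter MvPolynomial P269 P269.Holo

variable {J : Type} [Fintype J] {F : MvPolynomial (Fin 6) ℂ}

theorem mem_ust {y : J → ℂ} : y ∈ Ust (π₀ J) ↔ y ≠ 0 :=
  ⟨fun h => let ⟨j, _, e⟩ := h (); Function.ne_iff.2 ⟨j, e⟩,
    fun h _ => let ⟨j, e⟩ := Function.ne_iff.1 h; ⟨j, rfl, e⟩⟩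

theorem scl_eq (t : Unit → ℂ) (y : J → ℂ) : scl (π₀ J) t y = t () • y := rfl

theorem pv_proj (n : ℕ) : PV (π₀ (Fin (n + 1))) (Ust (π₀ (Fin (n + 1)))) n :=
  ⟨mc_Ust, fun y hy => by
    have := (MfdAt.univ y).congr (Z := Ust (π₀ (Fin (n + 1))))
      ((isOpen_Ust.eventually_mem hy).mono fun _ a => iff_of_true trivial a)
    simpa using this⟩

theorem an_eval (f : MvPolynomial J ℂ) (x : J → ℂ) : AnalyticAt ℂ (fun y : J → ℂ => eval y f) x :=
  AnalyticOnNhd.eval_mvPolynomial f x trivial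

theorem fderiv_eval (f : MvPolynomial J ℂ) (x v : J → ℂ) :
    fderiv ℂ (fun y : J → ℂ => eval y f) x v = ∑ j, v j * eval x (pderiv j f) := by
  classical
  have an := fun f : MvPolynomial J ℂ => (an_eval f x).differentiableAt.hasFDerivAt
  induction f using MvPolynomial.induction_on with
  | C a => simp
  | add p q hp hq =>
    simp only [map_add, mul_add, Finset.sum_add_distrib, ← hp, ← hq]
    exact DFunLike.congr_fun ((an p).add (an q)).fderiv v
  | mul_X p j hp =>
    have h := DFunLike.congr_fun ((an p).mul (hasFDerivAt_apply (𝕜 := ℂ) j x)).fderiv v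
    simp only [map_mul, eval_X]
    refine h.trans ?_
    simp [hp, Derivation.leibniz, pderiv_X, Pi.single_apply, mul_add, Finset.sum_add_distrib,
      Finset.mul_sum, apply_ite, mul_comm, mul_left_comm]

theorem mc (hF : F.IsHomogeneous 3) : MC (π₀ (Fin 6)) (Pub.cone F) :=
  mc_Ust.of_closed (Z := {x | eval x F = 0})
    (isClosed_eq (continuous_iff_continuousAt.2 fun x => (an_eval F x).continuousAt)
      continuous_const)
    (Set.ext fun _ => and_congr_left' mem_ust.symm) fun t ht y hy =>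
      ⟨smul_ne_zero (unit_iff.1 ht ()) hy.1, by rw [scl_eq, Rat.eval_smul hF, hy.2, mul_zero]⟩

theorem exists_dir (hs : Pub.IsSmoothForm F) {x : Fin 6 → ℂ} (hx : x ≠ 0) :
    ∃ v, fderiv ℂ (fun y : Fin 6 → ℂ => eval y F) x v = 1 := by
  obtain ⟨i, hi⟩ := not_forall.1 (mt (hs x) hx)
  refine ⟨Pi.single i (eval x (pderiv i F))⁻¹, ?_⟩
  rw [fderiv_eval, Finset.sum_eq_single i (fun j _ h => by simp [h]) (by simp)]
  simp [hi]

theorem mfd (hs : Pub.IsSmoothForm F) {x : Fin 6 → ℂ} (hx : x ∈ Pub.cone F) :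
    MfdAt (Pub.cone F) 5 x := by
  obtain ⟨v, hv⟩ := exists_dir hs hx.1
  refine (MfdAt.univ x).sub (an_eval F x) hx.2 (fun b _ => ?_)
    ((isOpen_ne.eventually_mem hx.1).mono fun s a => and_congr_left' (iff_of_true a trivial))
    (by simp)
  have d : HasDerivAt (fun ε : ℂ => x + ε • v) v 0 := by
    simpa using ((hasDerivAt_id (0 : ℂ)).smul_const v).const_add x
  have e := (an_eval F x).differentiableAt.hasFDerivAt.comp_hasDerivAt_of_eq 0 d (by simp)
  rw [← mul_one b]
  exact Submodule.smul_mem _ b (Submodule.subset_span ⟨fun ε => x + ε • v,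
    ⟨by fun_prop, by simp, .of_forall fun _ => trivial⟩, e.deriv.trans hv⟩)

/-- The smooth cubic is a variety of dimension four. -/
theorem pv (hF : F.IsHomogeneous 3) (hs : Pub.IsSmoothForm F) : PV (π₀ (Fin 6)) (Pub.cone F) 4 :=
  ⟨mc hF, fun _ hy => mfd hs hy⟩

theorem pv_tn_eq (hs : Pub.IsSmoothForm F) {x : Fin 6 → ℂ} (hx : x ∈ Pub.cone F) :
    tn (Pub.cone F) x = LinearMap.ker (fderiv ℂ (fun y : Fin 6 → ℂ => eval y F) x).toLinearMap := by
  refine Submodule.eq_of_le_of_finrank_eq (fun v hv => fderiv_eq_zero (mfd hs hx) (an_eval F x)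
    (.of_forall fun _ a => a.2) hv) ?_
  obtain ⟨v, hv⟩ := exists_dir hs hx.1
  have := (fderiv ℂ (fun y : Fin 6 → ℂ => eval y F) x).toLinearMap.finrank_range_add_finrank_ker
  rw [LinearMap.range_eq_top.2 fun b => ⟨b • v, by simp [hv]⟩] at this
  rw [finrank_tn (mfd hs hx)]
  simp at this
  omega

theorem pv_tn (hs : Pub.IsSmoothForm F) {x v : Fin 6 → ℂ} (hx : x ∈ Pub.cone F) :
    v ∈ tn (Pub.cone F) x ↔ ∑ j, v j * eval x (pderiv j F) = 0 := by
  rw [pv_tn_eq hs hx, ← fderiv_eval]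
  rfl

end Vale.Agent.P287Q.Cub
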