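import Vale.Agent.P287Q.Cub.P0
import Vale.Agent.P269.Hdg.Final
import Vale.Agent.P269.Mono.Fam

/-!
# P287, cubic fourfolds: the Fermat cubic, transport, parity of the intersection form
-/

namespace Vale.Agent.P287Q.Cub

open P291Z P291Z.Fl P269 P269.Hdg P269.Mono Zc Set Topology MvPolynomial
open Function hiding eval

variable {N : ℕ} {ι X Y : Type} [TopologicalSpace X] [TopologicalSpace Y]

section proj

variable {C : Set (E N)} {π : C → X}

/-- Homogeneous maps descend to the projectivisation. -/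
theorem p1_desc (hπ : IsProj π) {f : C → Y} (hf : Continuous f)
    (h : ∀ (x y : C) (t : ℂ), t • x.1 = y.1 → f x = f y) : ∃ g : C(X, Y), ∀ x, g (π x) = f x := by
  choose r hr using hπ.quot.surjective
  have e : ∀ x, f (r (π x)) = f x := fun x => by
    obtain ⟨t, ht⟩ := (hπ.fib _ _).1 (hr (π x))
    exact h _ _ t ht
  exact ⟨⟨f ∘ r, hπ.quot.continuous_iff.2 (hf.congr fun x => (e x).symm)⟩, e⟩

/-- Two projectivisations of the same cone are homeomorphic. -/
theorem p1_homeo (hπ : IsProj π) {π' : C → Y} (hπ' : IsProj π') :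
    ∃ e : X ≃ₜ Y, ∀ x, e (π x) = π' x := by
  obtain ⟨g, hg⟩ := p1_desc hπ hπ'.quot.continuous fun x y t h => (hπ'.fib x y).2 ⟨t, h⟩
  obtain ⟨g', hg'⟩ := p1_desc hπ' hπ.quot.continuous fun x y t h => (hπ.fib x y).2 ⟨t, h⟩
  exact ⟨⟨⟨g, g', hπ.quot.surjective.forall.2 fun x => by rw [hg, hg'],
    hπ'.quot.surjective.forall.2 fun x => by rw [hg', hg]⟩, g.continuous, g'.continuous⟩, hg⟩

end proj

section model

variable {M : Type} [NormedAddCommGroup M] [NormedSpace ℂ M] [FiniteDimensional ℂ M] [Fintype ι]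
  (S : CI M (Fin (N + 1)) ι) (u : M)

/-- The projection to the model in the space of projectors. -/
noncomputable def p1_pi (x : cone (S.F u)) : S.X u := ⟨prj x.1, x.1, x.2.1, funext x.2.2, rfl⟩

theorem p1_isProj : IsProj (p1_pi S u) := by
  have hc : Continuous (p1_pi S u) := Continuous.subtype_mk (continuous_iff_continuousAt.2 fun x =>
    continuousAt_prj continuous_subtype_val.continuousAt x.2.1) _
  refine ⟨?_, fun x y => ⟨fun h => ?_, fun ⟨t, h⟩ => Subtype.ext ?_⟩⟩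
  · let K : Set (E N) := {x | ip x x = 1} ∩ {x | S.ev u x = 0}
    have : CompactSpace K := isCompact_iff_compactSpace.1
      (isCompact_unit.inter_right (isClosed_eq (S.diff_ev u).continuous continuous_const))
    let i : K → cone (S.F u) := fun x => ⟨x.1, ne_zero_of_unit x.2.1, congrFun x.2.2⟩
    have hi : Continuous i := continuous_subtype_val.subtype_mk _
    refine IsQuotientMap.of_comp hi hc ((hc.comp hi).isClosedMap.isQuotientMap (hc.comp hi) ?_)
    rintro ⟨_, x, h0, h1, rfl⟩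
    obtain ⟨c, h2, h3⟩ := exists_unit h0
    exact ⟨⟨c • x, h3, S.ev_smul_of h1 c⟩, Subtype.ext (prj_smul h2 x)⟩
  · obtain ⟨c, hc⟩ := exists_smul_of_prj y.2.1 (congrArg Subtype.val h)
    exact ⟨c, hc.symm⟩
  · have : t ≠ 0 := fun h0 => y.2.1 (by rw [← h, h0, zero_smul])
    exact (prj_smul this x.1).symm.trans (congrArg Fl.prj h)

omit [FiniteDimensional ℂ M] [Fintype ι] in
theorem p1_mem_U [Unique ι] {d : ι → ℕ} (h : IsCI (S.F u) d) : u ∈ S.U := fun x hx => hx.2.2 fun c => by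
  obtain ⟨i, hi⟩ := Function.ne_iff.1 ((h.jac x ⟨hx.1, congrFun hx.2.1⟩).ne_zero default)
  refine ⟨Pi.single i (c default / eval x (pderiv i (S.F u default))), funext fun k => ?_⟩
  have e : HasFDerivAt (S.ev u) _ x := hasFDerivAt_pi.2 fun k => hasFDerivAt_eval (S.F u k) x
  rw [Subsingleton.elim k default, e.fderiv, ContinuousLinearMap.pi_apply, dEval_apply, Finset.sum_eq_single i (fun j _ e => by simp [e])
    (by simp), Pi.single_eq_same, mul_div_cancel₀ _ hi]

end model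

theorem p1_exists_ci (J : Type) [Fintype J] [Fintype ι] {d : ι → ℕ} (hd : ∀ k, 1 ≤ d k) :
    ∃ (n : ℕ) (S : CI (Fin n → ℂ) J ι), S.d = d := by
  have := fun k => Module.Finite.of_fg (homogeneousSubmodule_fg J ℂ (d k))
  obtain ⟨n, f, hf⟩ := Module.Finite.exists_fin' ℂ (∀ k, homogeneousSubmodule J ℂ (d k))
  refine ⟨n, ⟨.pi fun k => (Submodule.subtype _).comp ((LinearMap.proj k).comp f), d, hd,
    fun u k => (f u k).2, fun G hG => ?_⟩, rfl⟩
  obtain ⟨u, hu⟩ := hf fun k => ⟨G k, hG k⟩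
  exact ⟨u, funext fun k => congrArg Subtype.val (congrFun hu k)⟩

variable (ι) in
/-- The Fermat cubic. -/
noncomputable def fer : ι → MP 5 := fun _ => ∑ i, MvPolynomial.X i ^ 3

theorem fer_eval (j : ι) (x : E 5) : eval x (fer ι j) = x 0 ^ 3 + ∑ i : Fin 5, x i.succ ^ 3 := by
  rw [← Fin.sum_univ_succ fun i => x i ^ 3]
  simp [fer]

theorem fer_isCI [Unique ι] : IsCI (fer ι) fun _ => 3 where
  hom _ := IsHomogeneous.sum _ _ _ fun i _ => isHomogeneous_X_pow i 3
  pos _ := by omega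
  jac x hx := linearIndependent_unique_iff.2 fun h => hx.1 (funext fun i => by
    have := congrFun h i
    simp only [fer, map_sum, Derivation.leibniz_pow, pderiv_X] at this
    rw [Finset.sum_eq_single i (fun j _ e => by simp [e.symm]) (by simp)] at this
    simpa using this)

/-- The Fermat cubic is a cyclic triple cover of projective space. -/
theorem fer_sym [Nonempty ι] [CompactSpace X] [T2Space X] {π : cone (fer ι) → X} (hπ : IsProj π) :
    Sym X := by
  obtain ⟨j⟩ : Nonempty ι := inferInstance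
  obtain ⟨ω, hω⟩ : ∃ ω : ℂ, ω ^ 2 + ω + 1 = 0 := by
    obtain ⟨s, hs⟩ := IsAlgClosed.exists_pow_nat_eq (-3 : ℂ) two_pos
    exact ⟨(s - 1) / 2, by linear_combination hs / 4⟩
  have hω3 : ω ^ 3 = 1 := by linear_combination (ω - 1) * hω
  have h0 : ∀ x : cone (fer ι), Fin.tail x.1 ≠ 0 := fun x h => by
    have h1 := x.2.2 j
    have h2 : ∀ i : Fin 5, x.1 i.succ = 0 := congrFun h
    simp only [fer_eval, h2] at h1
    exact x.2.1 (funext (Fin.cases (by simpa using h1) h2))
  let mk : ∀ (a : ℂ) (y : Fin 5 → ℂ), y ≠ 0 → a ^ 3 + ∑ i, y i ^ 3 = 0 → cone (fer ι) :=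
    fun a y hy h => ⟨Fin.cons a y, fun e => hy (funext fun i => congrFun e i.succ),
      fun k => (fer_eval k _).trans h⟩
  let s : cone (fer ι) → cone (fer ι) := fun x => mk (ω * x.1 0) (Fin.tail x.1) (h0 x) (by
    rw [mul_pow, hω3, one_mul]; exact (fer_eval j _).symm.trans (x.2.2 j))
  have s0 : ∀ x, (s x).1 0 = ω * x.1 0 := fun _ => rfl
  have s1 : ∀ x (i : Fin 5), (s x).1 i.succ = x.1 i.succ := fun _ _ => rfl
  have hv : ∀ i, Continuous fun x : cone (fer ι) => x.1 i := fun i =>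
    (continuous_apply i).comp continuous_subtype_val
  have hs : Continuous s := continuous_induced_rng.2 (continuous_pi fun i => by
    cases i using Fin.cases
    exacts [continuous_const.mul (hv 0), hv _])
  obtain ⟨σ, hσ⟩ := p1_desc hπ (hπ.quot.continuous.comp hs) fun x y t h => (hπ.fib _ _).2
    ⟨t, funext (Fin.cases (by rw [Pi.smul_apply, s0, s0, ← h]; simp [mul_left_comm])
      fun i => by rw [Pi.smul_apply, s1, s1, ← h, Pi.smul_apply])⟩
  let f : cone (fer ι) → PV (⊤ : Submodule ℂ (Fin 5 → ℂ)) := fun x =>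
    ⟨prj (Fin.tail x.1), prj_mem (h0 x)⟩
  obtain ⟨q, hq⟩ := p1_desc hπ (f := f) (Continuous.subtype_mk (continuous_iff_continuousAt.2
    fun x => continuousAt_prj (continuous_pi fun i : Fin 5 => hv i.succ).continuousAt (h0 x)) _)
    fun x y t h => Subtype.ext (by
      have : t ≠ 0 := fun h0 => y.2.1 (by rw [← h, h0, zero_smul])
      have e : t • Fin.tail x.1 = Fin.tail y.1 := h ▸ rfl
      exact (prj_smul this (Fin.tail x.1)).symm.trans (congrArg Fl.prj e))
  have hsur := hπ.quot.surjective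
  have h3 : ∀ u, σ (σ (σ u)) = u := hsur.forall.2 fun x => by
    simp only [hσ, comp_apply]
    refine congrArg π (Subtype.ext (funext (Fin.cases ?_ fun i => rfl)))
    rw [s0, s0, s0]
    linear_combination x.1 0 * hω3
  have h4 : ∀ u, q (σ u) = q u := hsur.forall.2 fun x => by rw [hσ, comp_apply, hq, hq]; rfl
  have hf : ∀ u u', q u = q u' ↔ u = u' ∨ σ u = u' ∨ σ (σ u) = u' := by
    refine hsur.forall₂.2 fun x y => ⟨fun h => ?_, ?_⟩
    · rw [hq, hq] at h
      obtain ⟨t, ht⟩ := exists_smul_of_prj (h0 y) (congrArg Subtype.val h)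
      have h5 : ∀ i : Fin 5, y.1 i.succ = t * x.1 i.succ := congrFun ht
      have h6 := y.2.2 j
      have h7 := x.2.2 j
      simp only [fer_eval, h5, mul_pow, ← Finset.mul_sum] at h6 h7
      have h8 : (t * x.1 0 - y.1 0) * ((t * (ω * x.1 0) - y.1 0) *
          (t * (ω * (ω * x.1 0)) - y.1 0)) = 0 := by
        linear_combination t ^ 3 * h7 - h6 + t ^ 3 * x.1 0 ^ 3 * hω3 +
          (t * x.1 0 * y.1 0 ^ 2 - ω * t ^ 2 * x.1 0 ^ 2 * y.1 0) * hω
      simp only [mul_eq_zero, sub_eq_zero] at h8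
      simp only [hσ, comp_apply, hπ.fib]
      exact h8.imp (fun e => ⟨t, funext (Fin.cases e fun i => (h5 i).symm)⟩) (Or.imp
        (fun e => ⟨t, funext (Fin.cases e fun i => (h5 i).symm)⟩)
        fun e => ⟨t, funext (Fin.cases e fun i => (h5 i).symm)⟩)
    · rintro (h | h | h) <;> simp only [← h, h4]
  have hqs : Surjective q := by
    rintro ⟨_, y, -, hy, rfl⟩
    obtain ⟨a, ha⟩ := IsAlgClosed.exists_pow_nat_eq (-∑ i, y i ^ 3) three_pos
    exact ⟨π (mk a y hy (by rw [ha, neg_add_cancel])), hq _⟩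
  have : Nice (PV (⊤ : Submodule ℂ (Fin 5 → ℂ))) := ⟨inferInstance, inferInstance, inferInstance⟩
  have hb := isBasis_PV (⊤ : Submodule ℂ (Fin 5 → ℂ)) (k := 5) (by simp)
  refine ⟨σ, H.map q (xP ⊤), (xc_deg _).map q, fun e => hb.li.ne_zero 4
    ((p0_isUC h3 hf hqs).map_injective hqs ?_), ?_, h3, fun x hx => ?_⟩
  · exact (map_pow (H.map q) _ 4).trans (e.trans (map_zero _).symm)
  · rw [H.map_map, show q.comp σ = q from ContinuousMap.ext h4]
  · obtain ⟨y, h5, h6⟩ := p0_inv h3 hf hqs hx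
    have h7 : y ∈ amb (xP ⊤) := Submodule.span_mono (by rintro _ ⟨i, rfl⟩; exact ⟨i, rfl⟩)
      (hb.span Submodule.mem_top)
    rcases amb_deg (xc_deg _) h7 h5 with rfl | ⟨i, c, h8, rfl⟩
    · exact ⟨0, by rw [h6, map_zero, zero_smul]⟩
    · exact ⟨c, by rw [h6, H.map_smulC, map_pow, show i = 2 by omega]; rfl⟩

variable [Fintype ι] [DecidableEq ι] {F : ι → MP 5} {d : ι → ℕ} {π : cone F → X} (h : IsCI F d)
  (hπ : IsProj π) (hn : 4 + Fintype.card ι = 5) (hd : ∀ j, d j = 3)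
include h hπ hn hd

omit [DecidableEq ι] in
/-- Every smooth cubic fourfold has a topological symmetry of order three. -/
theorem cub_sym : Sym X := by
  obtain ⟨_⟩ := Fintype.card_eq_one_iff_nonempty_unique.1 (show Fintype.card ι = 1 by omega)
  obtain ⟨n, S, rfl⟩ := p1_exists_ci (Fin 6) h.pos
  obtain ⟨u, rfl⟩ := S.surj F h.hom
  obtain ⟨v, hv⟩ := S.surj (fer ι) fun k => hd k ▸ fer_isCI.hom k
  obtain ⟨e, -⟩ := p1_homeo hπ (p1_isProj S u)
  obtain ⟨e'⟩ := S.nonempty_homeomorph (p1_mem_U S u h) (p1_mem_U S v (hv ▸ fer_isCI))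
  have h1 : ∀ G : ι → MP 5, G = fer ι → ∀ π' : cone G → S.X v, IsProj π' → Sym (S.X v) := by
    rintro _ rfl π' h'
    exact fer_sym h'
  exact (h1 _ hv _ (p1_isProj S v)).homeo (e.trans e')

/-- **Parity**, for a functional `I` on cohomology. -/
theorem parity_map {I : H X →ₗ[ℂ] ℂ} {c : H X} (hc : H.IsDeg 2 c) (h3 : I (c ^ 2 * c ^ 2) = 3) :
    ∃ σ : C(X, X), ∀ x, H.IsDeg 4 x →
      I (x * x) + 2 * I (x * H.map σ x) = I (x * c ^ 2) * I (x * c ^ 2) :=
  (cub_sym h hπ hn hd).parity (fun _ hk _ _ => deg_smul h hπ hn hk) hc h3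

/-- **Parity** of the intersection form of a smooth cubic fourfold: `x² ≡ x η` modulo two. -/
theorem parity {β : BM X} {B : LinearMap.BilinForm ℤ (Lk X 4)} (hB : IsForm β 4 B) {c : H X}
    (hc : H.IsDeg 2 c) {η : Lk X 4} (hη : η.1 = c ^ 2) (h3 : B η η = 3) (x : Lk X 4) :
    Even (B x x - B x η) := by
  obtain ⟨σ, hσ⟩ := parity_map h hπ hn hd (I := Loc.intg β) hc (by rw [← hη, ← hB, h3]; rfl)
  have h1 := hσ x.1 x.2.2
  rw [← hη, ← hB, ← hB, ← hB x ⟨H.map σ x.1, Lam.map σ x.2.1, H.IsDeg.map x.2.2 σ⟩] at h1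
  have h2 : B x x + 2 * B x ⟨_, Lam.map σ x.2.1, H.IsDeg.map x.2.2 σ⟩ = B x η * B x η := by
    exact_mod_cast h1
  rw [eq_sub_of_add_eq h2, sub_right_comm, ← mul_sub_one]
  exact (Int.even_mul_pred_self _).sub (even_two_mul _)

end Vale.Agent.P287Q.Cub
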