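import Vale.Agent.P287Q.Cub.N1
import Vale.Agent.P287Q.Cub.P1
import Vale.Agent.P287Q.Cub.Defs
import Vale.Agent.P287Q.Int.All
import Vale.Agent.P287Q.Lat.Sgn

/-!
# P287, the lattice of a cubic fourfold
-/

set_option linter.unusedSectionVars false
set_option linter.style.haveILetI false

namespace Vale.Agent.P287Q.Cub

open Set Function Topology Filter Module P291Z P269 P269.Holo P269.Mono P269.Coh
  P269.Tq P269.Hdg Hb Zc P287Q.Lat
open scoped ComplexConjugate ContDiff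

section cj

variable {W Y : Type} [NormedAddCommGroup W] [NormedSpace ℂ W] [TopologicalSpace Y] {S : Set W}
  {π : S → Y}

theorem S_frm {k : ℕ} (f : (Fin (k + 1) → W) → ℂ) (x : W) (v : Fin k → W) :
    Mf.frm (fun y => conj (f y)) x v = conj (Mf.frm f x v) := by
  have := Complex.conjCLE.iteratedFDeriv_comp_left (f := f) (x := fun _ => x) (i := k)
  simp only [Mf.frm, map_sum, map_mul, map_intCast]
  exact Finset.sum_congr rfl fun σ _ => congrArg _ (DFunLike.congr_fun this _)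

theorem S_cj {p q : ℤ} {c : H Y} (hc : c ∈ HT S π p q) : cj c ∈ HT S π q p := by
  by_cases e : 0 ≤ p ∧ 0 ≤ q
  swap
  · rw [HT, if_neg e] at hc
    rw [hc, map_zero]; exact zero_mem _
  lift p to ℕ using e.1
  lift q to ℕ using e.2
  rw [HT_nat, mem_HN, isHd_iff] at hc ⊢
  obtain ⟨a, h1, rfl, h2, h3⟩ := hc
  refine ⟨cjC a, cocycle_cjC h1, (cj_hcls h1).symm, add_comm p q ▸ isDeg_cjC h2, fun x => ?_⟩
  obtain ⟨f, f1, f2, f3⟩ := h3 x
  have k : ∀ k, p + q = k → ∃ f : (Fin (k + 1) → W) → ℂ, ContDiff ℝ ∞ f ∧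
      (∀ᶠ y : Fin (k + 1) → S in 𝓝 fun _ => x,
        (cjC a).1 (List.ofFn fun i => π (y i)) = f fun i => (y i).1) ∧
      ∀ (t : ℂ) (v : Fin k → W), (∀ i, v i ∈ tn S x.1) →
        Mf.frm f x.1 (t • v) = t ^ q * conj t ^ p * Mf.frm f x.1 v := by
    rintro _ rfl
    refine ⟨fun y => conj (f y), Complex.conjCLE.contDiff.comp f1,
      f2.mono fun y e => congrArg conj e, fun t v hv => ?_⟩
    rw [S_frm, S_frm, f3 t v hv, map_mul, map_mul, map_pow, map_pow, Complex.conj_conj,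
      mul_comm (_ ^ p)]
  exact k _ (add_comm p q)

end cj

section sign

variable {Y : PS} {T : ℤ → ℤ → Submodule ℂ (H Y.X)} (g : HG Y T) {h : H Y.X} (r : HR Y T h)
  (hn : Y.n = 4)
include g r hn

theorem S_pos (L : Lf Y h) (hh : h ∈ T 1 1) (hc : cj h = h) (h3 : Y.J (h ^ 4) = 3) {x : H Y.X}
    (hx : x ∈ T 2 2) (h0 : x ≠ 0) : 0 < (Y.J (x * cj x)).re := by
  obtain ⟨a, ha, v, hv, rfl⟩ := L.exists_add x
  have h1 : H.IsDeg 4 v := hn ▸ L.van_deg hv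
  have h2 : a ∈ H.deg _ 4 := by simpa using (H.deg _ 4).sub_mem (g.deg 2 2 _ hx) h1
  obtain ⟨c, rfl⟩ : ∃ c : ℂ, a = c • (h * h) := by
    obtain rfl | ⟨j, c, e, rfl⟩ := amb_deg L.deg ha h2
    · exact ⟨0, (zero_smul _ _).symm⟩
    · exact ⟨c, by rw [show j = 2 by omega, sq]⟩
  have h4 : v ∈ T 2 2 := by
    simpa using (T 2 2).sub_mem hx ((T 2 2).smul_mem c (g.mul 1 1 1 1 h hh h hh))
  have h5 := L.mul_van hv
  have h6 : h * cj v = 0 := by rw [← hc, ← cj_mul, h5, map_zero]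
  have h7 : v * h = 0 := (L.deg.commute even_two v).symm.trans h5
  have h8 : Y.J ((c • (h * h) + v) * cj (c • (h * h) + v)) =
      (Complex.normSq c * 3 : ℝ) + Y.J (v * cj v) := by
    rw [map_add, LinearMap.map_smulₛₗ, cj_mul, hc, add_mul, mul_add, mul_add, smul_mul_assoc,
      smul_mul_assoc, mul_smul_comm, mul_smul_comm, mul_assoc h h (cj v), h6, ← mul_assoc v, h7,
      show h * h * (h * h) = h ^ 4 by noncomm_ring, smul_smul, Complex.mul_conj]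
    simp [h3]
  rw [h8, Complex.add_re, Complex.ofReal_re]
  by_cases e : v = 0
  · have : c ≠ 0 := fun k => h0 (by rw [k, e, zero_smul, add_zero])
    have := Complex.normSq_pos.2 this
    simp only [e, zero_mul, map_zero, Complex.zero_re]
    linarith
  · obtain ⟨t, h9, e⟩ := r 2 2 (by omega) v h4 e h5
    norm_num at e
    have := Complex.normSq_nonneg c
    rw [e, Complex.ofReal_re]
    linarith

theorem S_neg31 (h42 : T 4 2 = ⊥) (hh : h ∈ T 1 1) {x : H Y.X} (hx : x ∈ T 3 1) (h0 : x ≠ 0) :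
    (Y.J (x * cj x)).re < 0 := by
  obtain ⟨t, h9, e⟩ := r 3 1 (by omega) x hx h0 (h42.le (g.mul 1 1 3 1 h hh x hx))
  norm_num at e
  rw [neg_eq_iff_eq_neg.1 e]
  simpa using h9

theorem S_neg13 (h42 : T 4 2 = ⊥) (hh : h ∈ T 1 1) {x : H Y.X} (hx : x ∈ T 1 3) (h0 : x ≠ 0) :
    (Y.J (x * cj x)).re < 0 := by
  have := S_neg31 g r hn h42 hh (g.cj _ _ x hx) fun e => h0 (by rw [← cj_cj x, e, map_zero])
  rwa [cj_cj, J_comm (k := 2) (g.deg 1 3 x hx)] at this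

theorem S_neg (h42 : T 4 2 = ⊥) (hh : h ∈ T 1 1) {x : H Y.X} (hx : x ∈ T 3 1 ⊔ T 1 3)
    (h0 : x ≠ 0) : (Y.J (x * cj x)).re < 0 := by
  obtain ⟨a, ha, b, hb, rfl⟩ := Submodule.mem_sup.1 hx
  rw [map_add, add_mul, mul_add, mul_add, map_add, map_add, map_add,
    hg_J g (g.mul _ _ _ _ a ha _ (g.cj _ _ b hb)) (by omega),
    hg_J g (g.mul _ _ _ _ b hb _ (g.cj _ _ a ha)) (by omega), add_zero, zero_add, Complex.add_re]
  by_cases e : a = 0
  · subst e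
    simpa using S_neg13 g r hn h42 hh hb (by simpa using h0)
  by_cases e' : b = 0
  · subst e'
    simpa using S_neg31 g r hn h42 hh ha e
  exact add_neg (S_neg31 g r hn h42 hh ha e) (S_neg13 g r hn h42 hh hb e')

/-- **The signature** of a fourfold with the Hodge numbers of the cubic. -/
theorem S_sig (L : Lf Y h) (hh : h ∈ T 1 1) (hc : cj h = h) (h3 : Y.J (h ^ 4) = 3)
    (h42 : T 4 2 = ⊥) (h22 : finrank ℂ (T 2 2) = 21) (h31 : finrank ℂ (T 3 1) = 1)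
    (h13 : finrank ℂ (T 1 3) = 1) (b4 : finrank ℂ (H.deg Y.X 4) = 23) (z : IsLat Y.X 4)
    {B : LinearMap.BilinForm ℤ (Lk Y.X 4)} (hB : ∀ x y, (B x y : ℂ) = Y.J (x.1 * y.1)) :
    Sig B 21 2 := by
  haveI := z.free
  haveI := z.fin
  have h1 : T 3 1 ⊓ T 1 3 = ⊥ := eq_bot_iff.2 fun x hx => by_contra fun h0 => by
    have := S_neg31 g r hn h42 hh hx.1 h0
    rw [hg_J g (g.mul _ _ _ _ x hx.1 _ (g.cj _ _ x hx.2)) (by omega)] at this
    exact lt_irrefl _ this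
  have h2 := Submodule.finrank_sup_add_finrank_inf_eq (T 3 1) (T 1 3)
  rw [h1, finrank_bot, h31, h13, add_zero] at h2
  have h4 : Submodule.span ℂ (range (Lk Y.X 4).subtype.toAddMonoidHom) = H.deg Y.X 4 :=
    (congrArg _ Subtype.range_coe).trans z.span
  have := sig_of_herm B (fun x y => by
      exact_mod_cast (hB x y).trans ((J_comm (k := 2) y.2.2 _).trans (hB y x).symm))
    (bil Y.J) cj.toAddMonoidHom (fun c x => LinearMap.map_smulₛₗ cj c x)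
    (Lk Y.X 4).subtype.toAddMonoidHom (fun x y => (hB x y).symm) (fun x => cj_of_Lam x.2.1)
    (T 2 2) (T 3 1 ⊔ T 1 3) (h4 ▸ g.deg 2 2) (h4 ▸ sup_le (g.deg 3 1) (g.deg 1 3))
    (fun x => S_pos g r hn L hh hc h3) (fun x => S_neg g r hn h42 hh)
    (by rw [z.rank, b4, h22, h2])
  rwa [h22, h2] at this

end sign

variable {A : Type} [NormedRing A] [NormedAlgebra ℂ A] [FiniteDimensional ℂ A]

variable {ι : Type} [Fintype ι] [DecidableEq ι] {χ : A → ℂ}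

theorem Sc.hg' {N n : ℕ} {F : ι → MP N} {d : ι → ℕ} {act : A → E N → E N} [IsAct act univ]
    (s : Sc act χ) (h : IsCI F d) (hn : n + Fintype.card ι = N) :
    HG (s.qm h hn).ps (QT act (cone F)) := s.hg h hn fun _ _ _ => S_cj

theorem Sc.h_int {N n : ℕ} {F : ι → MP N} {d : ι → ℕ} {act : A → E N → E N} [IsAct act univ]
    (s : Sc act χ) (h : IsCI F d) (hn : n + Fintype.card ι = N) :
    lcq act (cone F) χ ∈ Lam (Quo act (cone F)) := (lcq_Lk (s.qm h hn) s.hm).1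

/-- The cohomological properties of a cubic fourfold. -/
structure CubH (Y : PS) (T : ℤ → ℤ → Submodule ℂ (H Y.X)) (h : H Y.X) : Prop where
  n : Y.n = 4
  hg : HG Y T
  pz : PZ Y
  re : Y.Re
  lf : Lf Y h
  h11 : h ∈ T 1 1
  int : h ∈ Lam Y.X
  deg : Y.J (h ^ 4) = 3
  h40 : T 4 0 = ⊥
  h20 : T 2 0 = ⊥
  h42 : T 4 2 = ⊥
  h22 : finrank ℂ (T 2 2) = 21
  h31 : finrank ℂ (T 3 1) = 1
  h13 : finrank ℂ (T 1 3) = 1
  b4 : finrank ℂ (H.deg Y.X 4) = 23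
  par : ∀ B : LinearMap.BilinForm ℤ (Lk Y.X 4), (∀ x y, (B x y : ℂ) = Y.J (x.1 * y.1)) →
    ∀ η : Lk Y.X 4, η.1 = h ^ 2 → B η η = 3 → ∀ x, Even (B x x - B x η)

/-- **The cohomology of a smooth cubic fourfold.** -/
theorem Cb.cubH {F : ι → MP 5} (c : Cb F) {act : A → E 5 → E 5} [IsAct act univ] (s : Sc act χ)
    {S : Set (E 5)} (e : S = cone F) (q : QM act S 4) : CubH q.ps (QT act S) (lcq act S χ) := by
  subst e
  haveI := q.cpt
  exact ⟨rfl, s.hg' c.ci c.hn, pz_qm q, q.re, c.lf s, s.h_mem c.ci c.hn, s.h_int c.ci c.hn,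
    c.J_pow s, c.h40 s, c.h20 s, c.h42 s, c.h22 s, c.h31 s, c.h13 s, c.b4 s,
    fun B hB η e h3 => parity c.ci s.isProj c.hn (fun _ => rfl) hB (c.lf s).deg e h3⟩

namespace CubH

variable {Y : PS} {T : ℤ → ℤ → Submodule ℂ (H Y.X)} {h : H Y.X} (c : CubH Y T h)
include c

theorem exists_gen : ∃ σ ∈ T 3 1, σ ≠ 0 ∧ T 3 1 ≤ ℂ ∙ σ := by
  obtain ⟨σ, h0, h1⟩ := finrank_eq_one_iff'.1 c.h31
  exact ⟨σ, σ.2, fun e => h0 (Subtype.ext e), fun x hx => (h1 ⟨x, hx⟩).elim fun t e =>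
    Submodule.mem_span_singleton.2 ⟨t, congrArg Subtype.val e⟩⟩

theorem gen {σ : H Y.X} (hσ : σ ∈ T 3 1) (h0 : σ ≠ 0) : T 3 1 ≤ ℂ ∙ σ :=
  (Submodule.eq_of_le_of_finrank_eq ((Submodule.span_singleton_le_iff_mem _ _).2 hσ)
    ((finrank_span_singleton h0).trans c.h31.symm)).ge

/-- The square of the hyperplane class. -/
noncomputable def η : Lk Y.X 4 := ⟨h ^ 2, (Lam _).pow_mem c.int 2, isDeg_pow c.lf.deg 2⟩

theorem η_val : c.η.1 = h ^ 2 := rfl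

theorem η_mem : c.η.1 ∈ T 2 2 := by
  rw [η_val, sq]; exact c.hg.mul 1 1 1 1 h c.h11 h c.h11

theorem exists_form : ∃ B : LinearMap.BilinForm ℤ (Lk Y.X 4),
    ∀ x y, (B x y : ℂ) = Y.J (x.1 * y.1) := by
  have := c.pz.form
  rw [c.n] at this
  exact this.imp fun _ e => e.1

variable {B : LinearMap.BilinForm ℤ (Lk Y.X 4)} (hB : ∀ x y, (B x y : ℂ) = Y.J (x.1 * y.1))
include hB

theorem symm (x y : Lk Y.X 4) : B x y = B y x := by
  exact_mod_cast (hB x y).trans ((J_comm (k := 2) y.2.2 _).trans (hB y x).symm)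

theorem η_sq : B c.η c.η = 3 := by
  have := hB c.η c.η
  rw [η_val, ← pow_add, c.deg] at this
  exact_mod_cast this

theorem even (x : Lk Y.X 4) : Even (B x x - B x c.η) := c.par B hB _ rfl (c.η_sq hB) x

variable (r : HR Y T h)
include r

theorem sig : Sig B 21 2 :=
  S_sig c.hg r c.n c.lf c.h11 (cj_of_Lam c.int) c.deg c.h42 c.h22 c.h31 c.h13 c.b4 (c.pz.lat 4) hB

theorem pos (x : Lk Y.X 4) (hx : x.1 ∈ T 2 2) (h0 : x ≠ 0) : 0 < B x x := by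
  have := S_pos c.hg r c.n c.lf c.h11 (cj_of_Lam c.int) c.deg hx fun e => h0 (Subtype.ext e)
  rw [cj_of_Lam x.2.1, ← hB] at this
  exact_mod_cast this

/-- **The labelling** from a correspondence with a surface. -/
theorem top {S W : PS} (zS : PZ S) (zW : PZ W) (nS : S.n = 2) {σ : H Y.X} (hσ : σ ∈ T 3 1)
    (h0 : σ ≠ 0) {C : LinearMap.BilinForm ℤ (Lk S.X 2)} (hC : ∀ x y, (C x y : ℂ) = S.J (x.1 * y.1))
    {σ' : H S.X} (hσ' : H.IsDeg 2 σ') {T' : Set (H S.X)} (hT' : ∀ a ∈ T', S.J (σ' * a) = 0)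
    {M : Submodule ℤ (Lk S.X 2)} (uM : Bijective (C.restrict M))
    {n : ℕ} (hn : n ≤ 19) (sM : Sig (C.restrict M) 3 n)
    (hM : ∀ x, (∀ a : Lk S.X 2, a.1 ∈ T' → C a x = 0) → x ∈ M)
    (p : C(W.X, Y.X)) (hp : ∀ x, W.J (H.map p x) = Y.J x) (φ : H S.X →ₗ[ℂ] H W.X)
    (φ0 : ∀ y ∈ Lk S.X 2, φ y ∈ Lam W.X)
    (φ1 : ∀ y, H.IsDeg 2 y → W.J (φ σ' * φ y) = -S.J (σ' * y)) (φ2 : H.map p σ = φ σ') :
    ∃ v : Lk Y.X 4, v.1 ∈ T 2 2 ∧ Sat (Submodule.span ℤ {c.η, v}) ∧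
      Adm (3 * B v v - B v c.η ^ 2) ∧ (6 < 3 * B v v - B v c.η ^ 2 ∨
        ∀ x : Lk Y.X 4, x.1 ∈ T 2 2 → x ∈ Submodule.span ℤ {c.η, v}) :=
  top_hg c.pz zS zW c.n nS c.hg c.re c.h40 hσ h0 (c.gen hσ h0) hB (c.sig hB r) (c.η_sq hB) c.η_mem
    (fun x _ => c.even hB x) (c.pos hB r) hC hσ' hT' uM hn sM hM p hp φ φ0 φ1 φ2

end CubH

section xf

open MvPolynomial

variable {F : MvPolynomial (Fin 6) ℂ}

theorem S_cone (F : MvPolynomial (Fin 6) ℂ) : Pub.cone F = cone fun _ : Unit => F :=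
  Set.ext fun _ => and_congr_right fun _ => ⟨fun h _ => h, fun h => h ()⟩

theorem S_cb (hF : F.IsHomogeneous 3) (hs : Pub.IsSmoothForm F) : Cb fun _ : Unit => F :=
  ⟨⟨fun _ => hF, fun _ => by simp, fun x hx => linearIndependent_unique_iff.2 fun e =>
    hx.1 (hs x (congrFun e))⟩, rfl⟩

variable [IsAct (scl (π₀ (Fin 6))) univ]

theorem qmF (hF : F.IsHomogeneous 3) (hs : Pub.IsSmoothForm F) :
    QM (scl (π₀ (Fin 6))) (Pub.cone F) 4 := S_cone F ▸ (S_cb hF hs).qm (sc_scl _)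

variable (q : QM (scl (π₀ (Fin 6))) (Pub.cone F) 4)

/-- **The cohomology of the cubic fourfold of the statement.** -/
theorem cubF (hF : F.IsHomogeneous 3) (hs : Pub.IsSmoothForm F) :
    CubH q.ps (QT _ (Pub.cone F)) (hyp F) := (S_cb hF hs).cubH (sc_scl _) (S_cone F) q

theorem hd_iff {i j : ℕ} {x : H (XF F)} : Hd F i j x ↔ x ∈ QT _ (Pub.cone F) i j := by
  rw [QT, HT_nat]; rfl

/-- **The conclusion of the main theorem** from a correspondence with a surface. -/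
theorem lab_of (hF : F.IsHomogeneous 3) (hs : Pub.IsSmoothForm F)
    (r : HR q.ps (QT _ (Pub.cone F)) (hyp F)) {S W : PS} (zS : PZ S) (zW : PZ W) (nS : S.n = 2)
    {σ : H (XF F)} (hσ : σ ∈ QT _ (Pub.cone F) 3 1) (h0 : σ ≠ 0)
    {C : LinearMap.BilinForm ℤ (Lk S.X 2)} (hC : ∀ x y, (C x y : ℂ) = S.J (x.1 * y.1))
    {σ' : H S.X} (hσ' : H.IsDeg 2 σ') {T' : Set (H S.X)} (hT' : ∀ a ∈ T', S.J (σ' * a) = 0)
    {M : Submodule ℤ (Lk S.X 2)} (uM : Bijective (C.restrict M))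
    {n : ℕ} (hn : n ≤ 19) (sM : Sig (C.restrict M) 3 n)
    (hM : ∀ x, (∀ a : Lk S.X 2, a.1 ∈ T' → C a x = 0) → x ∈ M)
    (p : C(W.X, XF F)) (hp : ∀ x, W.J (H.map p x) = q.ps.J x) (φ : H S.X →ₗ[ℂ] H W.X)
    (φ0 : ∀ y ∈ Lk S.X 2, φ y ∈ Lam W.X)
    (φ1 : ∀ y, H.IsDeg 2 y → W.J (φ σ' * φ y) = -S.J (σ' * y)) (φ2 : H.map p σ = φ σ') :
    ∃ d, Lab F d ∧ Adm d ∧ (6 < d ∨ Rk2 F) := by
  have c := cubF q hF hs
  obtain ⟨B, hB⟩ := c.exists_form
  obtain ⟨v, h1, h2, h3, h4⟩ :=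
    c.top hB r zS zW nS hσ h0 hC hσ' hT' uM hn sM hM p hp φ φ0 φ1 φ2
  have k1 := (hd_iff (i := 2) (j := 2)).2 c.η_mem
  have k2 := (hd_iff (i := 2) (j := 2)).2 h1
  exact ⟨_, ⟨B, c.η, v, hB, ⟨c.symm hB⟩, rfl, c.η_sq hB, k1, k2, h2, rfl⟩, h3,
    h4.imp_right fun e => ⟨c.η, v, k1, k2, fun x hx => e x (hd_iff.1 hx)⟩⟩

end xf

end Vale.Agent.P287Q.Cub
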