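import Vale.Agent.P287Q.Pub
import Vale.Agent.P287Q.Int.St
import Vale.Agent.P287Q.Lat.Defs
import Vale.Agent.P269.Pub.T2

/-!
# Exit, part 1: labellings in terms of cohomology classes
-/

namespace Vale.Agent.P287Q.Cub.Ex

open Set P291Z P269 P269.Tf Zc

variable {Y : Type} [TopologicalSpace Y] [CompactSpace Y] {Hdg : P269.Pub.Co Y → Prop}
  {P : H Y → Prop}

theorem exists_rep (x : Lk Y 4) : ∃ a : Zs Y, Pub.IsInt a.1.1 ∧ H.mk a = x.1 := by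
  obtain ⟨x, ⟨a, h1, h2, rfl⟩, h3⟩ := x
  exact ⟨⟨comp 4 a, cocycle_comp h2 4⟩, ⟨zc_val.2 (Zc_of_compact (cocycle_comp h2 4)),
    isDeg_comp 4 a, fun l => mem_ZZ.1 (h1.comp 4 l)⟩,
    (hcls_val _).symm.trans ((H.comp_hcls 4 h2).symm.trans (H.IsDeg.comp_eq h3))⟩

omit [CompactSpace Y] in
theorem mem_of_isInt {a : Zs Y} (h : Pub.IsInt a.1.1) : H.mk a ∈ Lk Y 4 :=
  ⟨⟨a.1, fun l => mem_ZZ.2 (h.2.2 l), a.2, hcls_val a⟩, a, h.2.1, rfl⟩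

omit [CompactSpace Y] in
theorem inSpan_iff {e : Fin 2 → Zs Y} {η v x : Lk Y 4} (h0 : H.mk (e 0) = η.1)
    (h1 : H.mk (e 1) = v.1) {a : Coch Y} (ha : supp (δ a) = ∅) (hx : hcls a = x.1) :
    Pub.InSpan (fun i => (e i).1.1) a.1 ↔ x ∈ Submodule.span ℤ {η, v} := by
  have k : ∀ m : Fin 2 → ℤ, (P269.Pub.Cohom univ a.1 fun l => ∑ i, (m i : ℂ) * (e i).1.1 l) ↔
      m 0 • η + m 1 • v = x := fun m => by
    have e1 : (∑ i, (m i : ℂ) • e i).1 = ∑ i, (m i : ℂ) • (e i).1 :=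
      AddSubmonoidClass.coe_finsetSum _ _
    rw [← val_sum (fun i => (m i : ℂ)) fun i => (e i).1, ← e1, cohom_univ (∑ i, (m i : ℂ) • e i).2,
      hcls_val, map_sum, hx, and_iff_right ha, Fin.sum_univ_two, Int.cast_smul_eq_zsmul,
      Int.cast_smul_eq_zsmul, map_zsmul, map_zsmul, h0, h1, eq_comm]
    exact Subtype.ext_iff (a1 := m 0 • η + m 1 • v).symm
  rw [Submodule.mem_span_pair]
  exact ⟨fun ⟨m, h⟩ => ⟨_, _, (k m).1 h⟩, fun ⟨s, t, h⟩ => ⟨![s, t], (k _).2 h⟩⟩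

theorem isAlg_iff (hP : ∀ c, P c ↔ ∃ a : Zs Y, Hdg a.1.1 ∧ H.mk a = c) {a : Zs Y} :
    Pub.IsAlg Hdg a.1.1 ↔ Pub.IsInt a.1.1 ∧ P (H.mk a) := by
  refine and_congr_right' ⟨fun ⟨c, h1, h2, h3⟩ => ?_, fun h => ?_⟩
  · obtain ⟨c, rfl⟩ := exists_zs h1
    exact (hP _).2 ⟨c, h2, by rw [← hcls_val, ← ((cohom_univ c.2).1 h3).2, hcls_val]⟩
  · obtain ⟨c, h1, h2⟩ := (hP _).1 h
    exact ⟨_, zc_val.2 (Zc_of_compact c.2), h1,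
      (cohom_univ c.2).2 ⟨a.2, by rw [hcls_val, hcls_val, h2]⟩⟩

theorem exists_pair (hP : ∀ c, P c ↔ ∃ a : Zs Y, Hdg a.1.1 ∧ H.mk a = c) {η v : Lk Y 4}
    (h1 : P η.1) (h2 : P v.1) : ∃ e : Fin 2 → Zs Y, (∀ i, Pub.IsAlg Hdg (e i).1.1) ∧
      H.mk (e 0) = η.1 ∧ H.mk (e 1) = v.1 := by
  obtain ⟨a, a1, a2⟩ := exists_rep η
  obtain ⟨b, b1, b2⟩ := exists_rep v
  exact ⟨![a, b], Fin.forall_fin_two.2
    ⟨(isAlg_iff hP).2 ⟨a1, a2 ▸ h1⟩, (isAlg_iff hP).2 ⟨b1, b2 ▸ h2⟩⟩, a2, b2⟩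

theorem posDef {a b : ℤ} (h : 0 < 3 * b - a ^ 2) : (!![3, a; a, b] : Matrix _ _ ℤ).PosDef := by
  refine .of_dotProduct_mulVec_pos (by ext i j; fin_cases i <;> fin_cases j <;> rfl) fun x hx => ?_
  have e : star x ⬝ᵥ (!![3, a; a, b] : Matrix _ _ ℤ).mulVec x =
      3 * x 0 ^ 2 + 2 * a * x 0 * x 1 + b * x 1 ^ 2 := by
    simp [dotProduct, Matrix.mulVec, Fin.sum_univ_two]; ring
  rw [e]
  by_cases h1 : x 1 = 0
  · have : x 0 ≠ 0 := fun h0 => hx (funext (Fin.forall_fin_two.2 ⟨h0, h1⟩))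
    rw [h1]
    simpa using sq_pos_of_ne_zero this
  · nlinarith [sq_nonneg (3 * x 0 + a * x 1), mul_pos h (sq_pos_of_ne_zero h1)]

theorem isLabelling (hP : ∀ c, P c ↔ ∃ a : Zs Y, Hdg a.1.1 ∧ H.mk a = c) {β : BM Y}
    {B : LinearMap.BilinForm ℤ (Lk Y 4)} (hB : IsForm β 4 B) (hs : B.IsSymm) {η v : Lk Y 4}
    {h : Coch Y} (hh : supp (δ h) = ∅) (hη : η.1 = hcls h ^ 2) (h3 : B η η = 3) (h1 : P η.1)
    (h2 : P v.1) (sat : Lat.Sat (Submodule.span ℤ {η, v})) (pos : 0 < 3 * B v v - B v η ^ 2) :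
    ∃ e, Pub.IsLabelling Hdg (fn β) h.1 (3 * B v v - B v η ^ 2) e := by
  obtain ⟨e, e1, e2, e3⟩ := exists_pair hP h1 h2
  have k : ∀ (a b : Zs Y) (x y : Lk Y 4), H.mk a = x.1 → H.mk b = y.1 →
      fn β (P269.Pub.cup a.1.1 b.1.1) = B x y := fun a b x y ha hb => by
    rw [hB, ← ha, ← hb, ← map_mul, ← hcls_val, Loc.intg_hcls _ (a * b).2]
    exact fn_val β (a * b).1
  refine ⟨fun i => (e i).1.1, e1, ⟨!![3, B v η; B v η, B v v], ?_, posDef pos, ?_⟩,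
    (inSpan_iff e2 e3 (a := h * h) (cocycle_mul hh hh) (by rw [hcls_mul hh hh, hη, sq])).2
      (Submodule.subset_span (by simp)), fun x n hx hn hk => ?_⟩
  · refine Fin.forall_fin_two.2 ⟨Fin.forall_fin_two.2 ⟨?_, ?_⟩, Fin.forall_fin_two.2 ⟨?_, ?_⟩⟩
    exacts [(k _ _ _ _ e2 e2).trans (congrArg _ h3), (k _ _ _ _ e2 e3).trans
      (congrArg _ (hs.eq η v)), k _ _ _ _ e3 e2, k _ _ _ _ e3 e3]
  · rw [Matrix.det_fin_two_of, sq]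
  · obtain ⟨a, rfl⟩ := exists_zs hx.1
    refine (inSpan_iff e2 e3 (x := ⟨_, mem_of_isInt hx⟩) a.2 (hcls_val a)).2 (sat n _ hn ?_)
    exact (inSpan_iff e2 e3 (a := (n : ℂ) • a.1) (cocycle_smul _ a.2)
      (by rw [hcls_smul _ a.2, hcls_val, Int.cast_smul_eq_zsmul]; rfl)).1 hk

theorem rankTwo (hP : ∀ c, P c ↔ ∃ a : Zs Y, Hdg a.1.1 ∧ H.mk a = c) {η v : Lk Y 4}
    (h1 : P η.1) (h2 : P v.1) (h : ∀ x : Lk Y 4, P x.1 → x ∈ Submodule.span ℤ {η, v}) :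
    ∃ e, (∀ i, Pub.IsAlg Hdg (e i)) ∧ ∀ x, Pub.IsAlg Hdg x → Pub.InSpan e x := by
  obtain ⟨e, e1, e2, e3⟩ := exists_pair hP h1 h2
  refine ⟨fun i => (e i).1.1, e1, fun x hx => ?_⟩
  obtain ⟨a, rfl⟩ := exists_zs hx.1.1
  exact (inSpan_iff e2 e3 (x := ⟨_, mem_of_isInt hx.1⟩) a.2 (hcls_val a)).2
    (h _ ((isAlg_iff hP).1 hx).2)

end Vale.Agent.P287Q.Cub.Ex
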