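import Vale.Agent.P287Q.Stm
import Vale.Agent.P287Q.Int.St
import Vale.Agent.P287Q.Lat.Defs

/-!
# Exit, part 3: cochains of a fixed degree
-/

namespace Vale.Agent.P287Q.Cub.Ey

open Set Topology Filter P291Z P269 Zc

variable {Y : Type} {k p q : ℕ}

theorem exists_ofFn {l : List Y} (h : l.length = k) : ∃ y : Fin k → Y, l = List.ofFn y := by
  subst h
  exact ⟨l.get, (List.ofFn_get l).symm⟩

theorem ext {a b : Coch Y} (ha : IsDeg k a) (hb : IsDeg k b)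
    (h : ∀ y : Fin (k + 1) → Y, a.1 (List.ofFn y) = b.1 (List.ofFn y)) : a = b :=
  Coch.ext fun l => by
    by_cases e : l.length = k + 1
    · obtain ⟨y, rfl⟩ := exists_ofFn e
      exact h y
    · rw [ha l (by omega), hb l (by omega)]

/-- The cochain given by a function of `k + 1` points. -/
noncomputable def L0 (G : Stm.Co Y k) : Coch Y :=
  ⟨fun l => if h : l.length = k + 1 then G fun i => l.get (i.cast h.symm) else 0,
    by simp, k + 1, fun l hl => dif_neg (by omega)⟩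

theorem L0_val (G : Stm.Co Y k) (l : List Y) :
    (L0 G).1 l = if h : l.length = k + 1 then G fun i => l.get (i.cast h.symm) else 0 := rfl

variable (k) in
/-- The cochain given by a function of `k + 1` points, as a linear map. -/
noncomputable def L : Stm.Co Y k →ₗ[ℂ] Coch Y where
  toFun := L0
  map_add' a b := Coch.ext fun l => by
    rw [Coch.add_val, Pi.add_apply, L0_val, L0_val, L0_val]
    split_ifs <;> simp
  map_smul' c a := Coch.ext fun l => by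
    rw [Coch.smul_val, Pi.smul_apply, L0_val, L0_val]
    split_ifs <;> simp

theorem L_ofFn (G : Stm.Co Y k) (y : Fin (k + 1) → Y) : (L k G).1 (List.ofFn y) = G y := by
  refine (dif_pos List.length_ofFn).trans (congrArg G (funext fun i => ?_))
  simp [-List.ofFn_succ]

theorem isDeg_L (G : Stm.Co Y k) : IsDeg k (L k G) := fun _ hl => dif_neg (by omega)

theorem exists_L {a : Coch Y} (ha : IsDeg k a) : ∃ G, L k G = a :=
  ⟨fun y => a.1 (List.ofFn y), ext (isDeg_L _) ha (L_ofFn _)⟩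

theorem L_cob (G : Stm.Co Y k) : L (k + 1) (Stm.cob G) = δ (L k G) := by
  refine ext (isDeg_L _) ((isDeg_L G).δ.cast (by simp)) fun y => ?_
  rw [L_ofFn, δ_val, cob, List.length_ofFn, Finset.sum_range]
  refine Finset.sum_congr rfl fun j _ => congrArg _ ((L_ofFn G _).symm.trans (congrArg _ ?_))
  refine List.ext_getElem (by simp [List.length_eraseIdx, j.2, -List.ofFn_succ]) fun i h1 h2 => ?_
  rw [List.getElem_eraseIdx]
  simp only [List.getElem_ofFn, Fin.succAbove, Fin.lt_def, Fin.val_castSucc]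
  split_ifs <;> rfl

theorem L_cup (a : Stm.Co Y p) (b : Stm.Co Y q) : L (p + q) (Stm.cup a b) = L p a * L q b := by
  refine ext (isDeg_L _) (((isDeg_L a).mul (isDeg_L b)).cast (by simp)) fun y => ?_
  have e1 : (List.ofFn y).take (p + 1) =
      List.ofFn fun i => y (i.castLE (Nat.succ_le_succ (Nat.le_add_right p q))) :=
    List.ext_getElem (by simp [-List.ofFn_succ]) fun i h1 h2 => by simp [-List.ofFn_succ]
  have e2 : (List.ofFn y).drop p = List.ofFn fun j : Fin (q + 1) => y (j.natAdd p) :=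
    List.ext_getElem (by simp [-List.ofFn_succ]; omega) fun i h1 h2 => by
      simp only [List.getElem_ofFn, List.getElem_drop]; rfl
  rw [L_ofFn, mul_val_of_isDeg (isDeg_L a) _ _ (by rw [List.length_ofFn]; omega), e1, e2,
    L_ofFn, L_ofFn]
  rfl

theorem isZ_iff {G : Stm.Co Y k} : IsZ (L k G) ↔ ∀ y, ∃ n : ℤ, G y = n := by
  refine ⟨fun h y => mem_ZZ.1 (L_ofFn G y ▸ h _), fun h l => ?_⟩
  by_cases e : l.length = k + 1
  · obtain ⟨y, rfl⟩ := exists_ofFn e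
    rw [L_ofFn]
    exact mem_ZZ.2 (h y)
  · rw [isDeg_L G l (by omega)]
    exact ZZ.zero_mem

variable [TopologicalSpace Y]

theorem null_iff {G : Stm.Co Y k} : Stm.Null G ↔ supp (L k G) = ∅ := by
  refine (forall_congr' fun x => ?_).trans eq_empty_iff_forall_notMem.symm
  rw [notMem_supp]
  refine ⟨fun h => ?_, fun ⟨U, hU, h⟩ => ?_⟩
  · rw [nhds_pi, Filter.Eventually, Filter.mem_pi] at h
    obtain ⟨I, -, t, h1, h2⟩ := h
    refine ⟨⋂ i, t i, iInter_mem.2 h1, fun l hl => ?_⟩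
    by_cases e : l.length = k + 1
    · obtain ⟨y, rfl⟩ := exists_ofFn e
      rw [L_ofFn]
      exact h2 fun i _ => mem_iInter.1 (hl _ (List.mem_ofFn.2 ⟨i, rfl⟩)) i
    · exact isDeg_L G l (by omega)
  · filter_upwards [set_pi_mem_nhds finite_univ fun _ _ => hU] with y hy
    rw [← L_ofFn G]
    exact h _ fun z hz => by
      obtain ⟨i, rfl⟩ := List.mem_ofFn.1 hz
      exact hy i trivial

theorem cyc_iff {G : Stm.Co Y k} : Stm.Null (Stm.cob G) ↔ supp (δ (L k G)) = ∅ := by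
  rw [null_iff, L_cob]

/-- The class of a cocycle. -/
noncomputable def cl (G : Stm.Co Y k) : H Y := hcls (L k G)

theorem cl_deg (G : Stm.Co Y k) : H.IsDeg k (cl G) := hcls_isDeg (isDeg_L G)

theorem cohom_iff {a b : Stm.Co Y (k + 1)} (hb : Stm.Null (Stm.cob b)) :
    Stm.Cohom a b ↔ Stm.Null (Stm.cob a) ∧ cl a = cl b := by
  rw [cyc_iff] at hb ⊢
  refine ⟨fun ⟨c, h⟩ => ?_, fun ⟨h1, h2⟩ => ?_⟩
  · rw [null_iff, map_sub, map_sub, L_cob] at h
    exact ⟨cocycle_of_cohom hb h, hcls_eq_of_cohom hb h⟩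
  · obtain ⟨c, h⟩ := (hcls_eq_iff h1 hb).1 h2
    obtain ⟨G, hG⟩ := exists_L (isDeg_comp k c)
    refine ⟨G, null_iff.2 (supp_eq_empty.2 fun x => ?_)⟩
    have := Van.comp (supp_eq_empty.1 h x) (k + 1)
    rwa [map_sub, map_sub, comp_δ, ← hG, ← L_cob, IsDeg.comp_eq ((isDeg_L a).cast (by simp)),
      IsDeg.comp_eq ((isDeg_L b).cast (by simp)), ← map_sub, ← map_sub] at this

theorem mem_Lk {G : Stm.Co Y k} (h : Stm.IsInt G) : cl G ∈ Lk Y k :=
  ⟨⟨_, isZ_iff.2 h.2, cyc_iff.1 h.1, rfl⟩, cl_deg G⟩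

theorem exists_int {x : H Y} (hx : x ∈ Lk Y k) : ∃ G : Stm.Co Y k, Stm.IsInt G ∧ cl G = x := by
  obtain ⟨⟨a, h1, h2, rfl⟩, h3⟩ := hx
  obtain ⟨G, hG⟩ := exists_L (isDeg_comp k a)
  exact ⟨G, ⟨cyc_iff.2 (hG ▸ cocycle_comp h2 k), isZ_iff.1 (hG ▸ h1.comp k)⟩,
    (congrArg hcls hG).trans ((H.comp_hcls k h2).symm.trans (H.IsDeg.comp_eq h3))⟩

theorem cyc_cup {a : Stm.Co Y p} {b : Stm.Co Y q} (ha : Stm.Null (Stm.cob a))
    (hb : Stm.Null (Stm.cob b)) :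
    Stm.Null (Stm.cob (Stm.cup a b)) ∧ cl (Stm.cup a b) = cl a * cl b := by
  rw [cyc_iff] at ha hb ⊢
  rw [cl, L_cup]
  exact ⟨cocycle_mul ha hb, hcls_mul ha hb⟩

theorem cyc_lin {a b : Stm.Co Y k} (ha : Stm.Null (Stm.cob a)) (hb : Stm.Null (Stm.cob b))
    (s t : ℂ) : Stm.Null (Stm.cob (s • a + t • b)) ∧ cl (s • a + t • b) = s • cl a + t • cl b := by
  rw [cyc_iff] at ha hb ⊢
  rw [cl, map_add, map_smul, map_smul, hcls_add (cocycle_smul s ha) (cocycle_smul t hb),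
    hcls_smul s ha, hcls_smul t hb]
  exact ⟨cocycle_add (cocycle_smul s ha) (cocycle_smul t hb), rfl⟩

theorem cyc_zero : Stm.Null (Stm.cob (0 : Stm.Co Y k)) ∧ cl (0 : Stm.Co Y k) = 0 := by
  rw [cyc_iff, cl, map_zero]
  exact ⟨cocycle_zero, hcls_zero⟩

theorem inSpan_iff {e : Fin 2 → Stm.Co Y 4} (he : ∀ i, Stm.Null (Stm.cob (e i))) {η v x : Lk Y 4}
    (h0 : cl (e 0) = η.1) (h1 : cl (e 1) = v.1) {a : Stm.Co Y 4} (ha : Stm.Null (Stm.cob a))
    (hx : cl a = x.1) : Stm.InSpan e a ↔ x ∈ Submodule.span ℤ {η, v} := by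
  have k : ∀ m : Fin 2 → ℤ, Stm.Cohom a (∑ i, m i • e i) ↔ m 0 • η + m 1 • v = x := fun m => by
    obtain ⟨k1, k2⟩ := cyc_lin (he 0) (he 1) (m 0) (m 1)
    simp only [Int.cast_smul_eq_zsmul] at k1 k2
    rw [Fin.sum_univ_two, cohom_iff k1, k2, and_iff_right ha, h0, h1, hx, eq_comm]
    exact Subtype.ext_iff (a1 := m 0 • η + m 1 • v).symm
  rw [Submodule.mem_span_pair]
  exact ⟨fun ⟨m, h⟩ => ⟨_, _, (k m).1 h⟩, fun ⟨s, t, h⟩ => ⟨![s, t], (k _).2 h⟩⟩

variable {J : H Y →ₗ[ℂ] ℂ} {h : H Y}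

theorem exists_pol (hJ : ∀ c ∈ Lam Y, J c ∈ ZZ) (hh : h ∈ Lk Y 2) (h3 : J (h ^ 4) = 3) :
    ∃ β g, Stm.IsPol (Y := Y) β g := by
  let Z : Submodule ℂ (Stm.Co Y 8) :=
    { carrier := {a | Stm.Null (Stm.cob a)}
      zero_mem' := cyc_zero.1
      add_mem' := fun ha hb => by simpa using (cyc_lin ha hb 1 1).1
      smul_mem' := fun c a ha => by simpa using (cyc_lin ha ha c 0).1 }
  let f : Z →ₗ[ℂ] H Y :=
    { toFun := fun a => cl a.1
      map_add' := fun a b => by simpa using (cyc_lin a.2 b.2 1 1).2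
      map_smul' := fun c a => by simpa using (cyc_lin a.2 a.2 c 0).2 }
  obtain ⟨β, hβ⟩ := (J ∘ₗ f).exists_extend
  have k : ∀ a, Stm.Null (Stm.cob a) → β a = J (cl a) := fun a ha =>
    LinearMap.congr_fun hβ ⟨a, ha⟩
  obtain ⟨g, g1, rfl⟩ := exists_int (k := 2) hh
  obtain ⟨c1, c2⟩ := cyc_cup g1.1 g1.1
  obtain ⟨c3, c4⟩ := cyc_cup c1 c1
  refine ⟨β, g, fun a ha => ?_, fun a ha => ?_, g1, ?_⟩
  · obtain ⟨a1, a2⟩ := (cohom_iff cyc_zero.1).1 ha
    rw [k a a1, a2, cyc_zero.2, map_zero]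
  · exact mem_ZZ.1 (k a ha.1 ▸ hJ _ (mem_Lk ha).1)
  · rw [k _ c3, ← h3]
    exact congrArg J (c4.trans (by rw [c2]; noncomm_ring))

theorem of_pol (hJ : ∀ c ∈ Lam Y, J c ∈ ZZ) (hh : h ∈ Lk Y 2) (h3 : J (h ^ 4) = 3)
    (h2 : ∀ x, H.IsDeg 2 x → ∃ s : ℂ, x = s • h) (h8 : ∀ x, H.IsDeg 8 x → ∃ s : ℂ, x = s • h ^ 4)
    (h1 : ∃ b ∈ Lk Y 8, J b = 1) {β g} (hp : Stm.IsPol (Y := Y) β g) :
    (∀ a, Stm.Null (Stm.cob a) → β a = J (cl a)) ∧ cl g ^ 2 = h ^ 2 := by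
  obtain ⟨p1, p2, p3, p4⟩ := hp
  obtain ⟨b, hb, b1⟩ := h1
  obtain ⟨b, b2, rfl⟩ := exists_int (k := 8) hb
  obtain ⟨n, hn⟩ := p2 b b2
  have k : ∀ a, Stm.Null (Stm.cob a) → β a = n * J (cl a) := fun a ha => by
    obtain ⟨k1, k2⟩ := cyc_lin ha b2.1 1 (-J (cl a))
    obtain ⟨s, hs⟩ := h8 _ (cl_deg ((1 : ℂ) • a + -J (cl a) • b))
    have e := congrArg J hs
    rw [k2, map_add, map_smul, map_smul, map_smul, b1, h3] at e
    obtain rfl : s = 0 := by simpa using e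
    have := p1 _ ((cohom_iff cyc_zero.1).2 ⟨k1, hs.trans ((zero_smul _ _).trans cyc_zero.2.symm)⟩)
    rw [map_add, map_smul, map_smul, hn] at this
    simp only [smul_eq_mul] at this
    linear_combination this
  obtain ⟨s, hs⟩ := h2 _ (cl_deg g)
  obtain ⟨c1, c2⟩ := cyc_cup p3.1 p3.1
  obtain ⟨c3, c4⟩ := cyc_cup c1 c1
  have hg := (mem_Lk p3).1
  have e : ∀ i j, i + j = 4 → ∃ m : ℤ, s ^ i * 3 = m := fun i j e => by
    have := hJ _ ((Lam Y).mul_mem ((Lam Y).pow_mem hg i) ((Lam Y).pow_mem hh.1 j))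
    rwa [hs, smul_pow, smul_mul_assoc, ← pow_add, e, map_smul, h3, mem_ZZ] at this
  obtain ⟨m, hm⟩ := e 1 3 rfl
  obtain ⟨m', hm'⟩ := e 2 2 rfl
  have e3 : m ^ 2 = 3 * m' := by
    have : (m : ℂ) ^ 2 = 3 * m' := by rw [← hm, ← hm']; ring
    exact_mod_cast this
  obtain ⟨u, rfl⟩ : (3 : ℤ) ∣ m := Int.prime_three.dvd_of_dvd_pow ⟨_, e3⟩
  obtain rfl : s = u := by push_cast at hm; linear_combination hm / 3
  have e4 : n * u ^ 4 = 1 := by
    have := (k _ c3).symm.trans p4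
    rw [show cl (Stm.cup (Stm.cup g g) (Stm.cup g g)) = cl g ^ 4 from
      c4.trans (by rw [c2]; noncomm_ring), hs, smul_pow, map_smul, h3, smul_eq_mul] at this
    have : (n : ℂ) * u ^ 4 = 1 := by linear_combination this / 3
    exact_mod_cast this
  have e5 : u ^ 2 = 1 := by
    rcases Int.isUnit_iff.1 (IsUnit.of_mul_eq_one (n * u ^ 3) (by linear_combination e4) :
      IsUnit u) with rfl | rfl <;> rfl
  obtain rfl : n = 1 := by
    rw [show u ^ 4 = (u ^ 2) ^ 2 by ring, e5] at e4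
    simpa using e4
  refine ⟨fun a ha => by simpa using k a ha, ?_⟩
  rw [hs, smul_pow, show (u : ℂ) ^ 2 = 1 by exact_mod_cast e5, one_smul]

end Vale.Agent.P287Q.Cub.Ey
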