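import Vale.Agent.P287Q.Cub.Ex0
import Vale.Agent.P287Q.Cub.Pv

/-!
# Exit, part 2: the public statement from the main theorem
-/

set_option linter.style.haveILetI false

namespace Vale.Agent.P287Q.Cub

open Set MvPolynomial P291Z P269 P269.Tf P269.Tq P269.Mono P269.Holo Zc

section gen

variable {A W : Type} [NormedRing A] [NormedAlgebra ℂ A] [NormedAddCommGroup W] [NormedSpace ℂ W]
  [FiniteDimensional ℂ A] [FiniteDimensional ℂ W] {act : A → W → W} {S : Set W} [IsAct act univ]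
  [FP act S] {n : ℕ} {c : A → ℂ}

theorem Ex.fund_iff (h : Dim act S n) {β} : P269.Pub.IsFund act S β ↔ β = Tf.fn (fnd act S) :=
  isFund_iff.trans ⟨fun ⟨_, h1, h2⟩ => by rw [← h2, h.fnd_eq, FP.eq_fundQ h.holOrb h1],
    fun e => ⟨_, h.isFund, e.symm⟩⟩

theorem Ex.euler (hc : Hm c) :
    (∃ e, P269.Pub.IsEuler act (fun t (z : ℂ) => c t * z) S (fun _ => univ) (fun _ => ∅) e) ∧
    ∀ e, P269.Pub.IsEuler act (fun t (z : ℂ) => c t * z) S (fun _ => univ) (fun _ => ∅) e →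
      ∃ a : Coch (Quo act S), a.1 = e ∧ supp (δ a) = ∅ ∧ hcls a = lcq act S c := by
  have h := isMod_char (pres act S) (χ := hc.ρ) (c := c) fun _ => rfl
  have k : ∀ e, P269.Pub.IsEuler act (fun t (z : ℂ) => c t * z) S (fun _ => univ) (fun _ => ∅) e ↔
      ∃ e', IsEul act (fun t (z : ℂ) => c t * z) S (fun _ => ⊤) (fun _ => ⊥) e' ∧ e'.1 = e :=
    fun e => isEuler_iff.trans (by rw [Submodule.span_univ, Submodule.span_empty])
  obtain ⟨t, ht⟩ := h.exists_isThomOf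
  refine ⟨⟨_, (k _).2 ⟨_, ⟨t, ht, rfl⟩, rfl⟩⟩, fun e he => ?_⟩
  obtain ⟨_, ⟨t, ht, rfl⟩, rfl⟩ := (k e).1 he
  exact ⟨_, rfl, (h.isCo_sec (Ch.VB.isSec_zero _) h.exists_zero ht).cocycle,
    ((h.cohom_sec (Ch.VB.isSec_zero _) h.exists_zero ht).trans (h.cohom_sec (Ch.VB.isSec_zero _)
      h.exists_zero (Classical.epsilon_spec h.exists_isThomOf)).symm).hcls_eq h.eulerC_cocycle⟩

end gen

variable {F : MvPolynomial (Fin 6) ℂ}

theorem ex_hd_iff (hs : Pub.IsSmoothForm F) (c : H (XF F)) :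
    Hd F 2 2 c ↔ ∃ a : Zs (XF F), Pub.Hdg22 F a.1.1 ∧ H.mk a = c := by
  refine exists_congr fun a => and_comm.trans (and_assoc.trans (and_comm.trans
    (and_congr_left' (and_comm.trans (and_congr_right' (forall_congr' fun x =>
      exists_congr fun f => and_congr_right' (and_congr
        (Filter.eventually_congr (.of_forall fun _ => eq_comm)) (forall_comm.trans
        (forall₂_congr fun v s => imp_congr_left (forall_congr' fun i => pv_tn hs x.2))))))))))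

theorem hm_unit : Hm fun t : Unit → ℂ => t () :=
  ⟨rfl, fun _ _ _ _ => rfl, fun _ _ => (continuous_apply ()).continuousAt⟩

theorem Lab.inC (hF : F.IsHomogeneous 3) (hs : Pub.IsSmoothForm F) {d : ℤ} (h : Lab F d)
    (pos : 0 < d) : Pub.InC F d := by
  haveI := (pv hF hs).toMC.fp
  haveI := isAct_scl (π₀ (Fin 6))
  haveI := (pv hF hs).toMC.compact
  have hd := (pv hF hs).dim
  obtain ⟨B, η, v, h1, h2, h3, h4, h5, h6, h7, rfl⟩ := h
  obtain ⟨⟨e, he⟩, k⟩ := Ex.euler (act := scl (π₀ (Fin 6))) (S := Pub.cone F) hm_unit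
  refine ⟨⟨_, e, (Ex.fund_iff hd).2 rfl, he⟩, fun β h hβ hh => ?_⟩
  obtain rfl := (Ex.fund_iff hd).1 hβ
  obtain ⟨a, rfl, a1, a2⟩ := k h hh
  exact Ex.isLabelling (Y := XF F) (ex_hd_iff hs) h1 h2 a1 (a2 ▸ h3) h4 h5 h6 h7 pos

theorem Rk2.rankTwo (hF : F.IsHomogeneous 3) (hs : Pub.IsSmoothForm F) (h : Rk2 F) :
    Pub.RankTwo F := by
  haveI := (pv hF hs).toMC.compact
  obtain ⟨η, v, h1, h2, h3⟩ := h
  exact Ex.rankTwo (Y := XF F) (ex_hd_iff hs) h1 h2 h3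

theorem adm_of {d : ℤ} (h : Lat.Adm d) (h6 : 6 < d) : Pub.Admissible d :=
  ⟨h6, h.2.1, h.2.2.1, h.2.2.2.1, fun p hp ho =>
    h.2.2.2.2 p hp (by rintro rfl; exact absurd ho (by decide))⟩

/-- **The public statement from the main theorem.** -/
theorem pub_of (hM : Main) (hF : F.IsHomogeneous 3) (hs : Pub.IsSmoothForm F)
    (hr : Pub.IsRationalForm F) :
    ∃ d, Pub.InC F d ∧ (Pub.Admissible d ∨ (d = 2 ∨ d = 6) ∧ Pub.RankTwo F) := by
  obtain ⟨b⟩ := rat hF hr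
  obtain ⟨d, h1, h2, h3⟩ := hM F hF hs b
  refine ⟨d, h1.inC hF hs h2.1, ?_⟩
  by_cases h6 : 6 < d
  · exact .inl (adm_of h2 h6)
  · exact .inr ⟨by have := h2.1; have := h2.2.1; omega, (h3.resolve_left h6).rankTwo hF hs⟩

/-- The same with `C_2 = C_6 = ∅`. -/
theorem pub_of_d26 (hM : Main) (hD : D26) (hF : F.IsHomogeneous 3) (hs : Pub.IsSmoothForm F)
    (hr : Pub.IsRationalForm F) : ∃ d, Pub.Admissible d ∧ Pub.InC F d := by
  obtain ⟨b⟩ := rat hF hr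
  obtain ⟨d, h1, h2, -⟩ := hM F hF hs b
  have k2 : d ≠ 2 := fun e => (hD F hF hs).1 (e ▸ h1)
  have k6 : d ≠ 6 := fun e => (hD F hF hs).2 (e ▸ h1)
  exact ⟨d, adm_of h2 (by have := h2.1; have := h2.2.1; omega), h1.inC hF hs h2.1⟩

end Vale.Agent.P287Q.Cub
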