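import Vale.Agent.P287Q.StmR
import Vale.Agent.P287Q.Cub.Ex2
import Vale.Agent.P287Q.Cub.Exit

/-!
# Exit, part 4: labellings given by cochains of a fixed degree
-/

namespace Vale.Agent.P287Q.Cub.Ey

open Set Topology Filter MvPolynomial P291Z P269 Zc

section gen

variable {Y : Type} [TopologicalSpace Y] (Hdg : Stm.Co Y 4 → Prop)

/-- Integral classes of type `(2, 2)`. -/
def GAlg (a : Stm.Co Y 4) : Prop := Stm.IsInt a ∧ ∃ c, Hdg c ∧ Stm.Cohom a c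

/-- Labellings. -/
def GLab (β : Stm.Co Y 8 →ₗ[ℂ] ℂ) (h : Stm.Co Y 2) (d : ℤ) (e : Fin 2 → Stm.Co Y 4) : Prop :=
  (∀ i, GAlg Hdg (e i)) ∧
  (∃ G : Matrix (Fin 2) (Fin 2) ℤ, (∀ i j, β (Stm.cup (e i) (e j)) = G i j) ∧ G.PosDef ∧
    G.det = d) ∧
  Stm.InSpan e (Stm.cup h h) ∧
  ∀ x (n : ℤ), Stm.IsInt x → n ≠ 0 → Stm.InSpan e (n • x) → Stm.InSpan e x

/-- Membership in `C_d`. -/
def GInC (d : ℤ) : Prop :=
  (∃ β h, Stm.IsPol (Y := Y) β h) ∧ ∀ β h, Stm.IsPol β h → ∃ e, GLab Hdg β h d e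

/-- Rank two. -/
def GRk : Prop := ∃ e, (∀ i, GAlg Hdg (e i)) ∧ ∀ x, GAlg Hdg x → Stm.InSpan e x

variable {Hdg} {P : H Y → Prop} (hc : ∀ G, Hdg G → Stm.Null (Stm.cob G))
  (hP : ∀ c, P c ↔ ∃ G, Hdg G ∧ cl G = c)
include hc hP

theorem gAlg_iff {a : Stm.Co Y 4} : GAlg Hdg a ↔ Stm.IsInt a ∧ P (cl a) := by
  refine and_congr_right fun ha => ⟨fun ⟨c, h1, h2⟩ => ?_, fun h => ?_⟩
  · exact (hP _).2 ⟨c, h1, ((cohom_iff (hc c h1)).1 h2).2.symm⟩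
  · obtain ⟨c, h1, h2⟩ := (hP _).1 h
    exact ⟨c, h1, (cohom_iff (hc c h1)).2 ⟨ha.1, h2.symm⟩⟩

theorem exists_pair {η v : Lk Y 4} (h1 : P η.1) (h2 : P v.1) :
    ∃ e : Fin 2 → Stm.Co Y 4, (∀ i, GAlg Hdg (e i)) ∧ cl (e 0) = η.1 ∧ cl (e 1) = v.1 := by
  obtain ⟨a, a1, a2⟩ := exists_int (k := 4) η.2
  obtain ⟨b, b1, b2⟩ := exists_int (k := 4) v.2
  exact ⟨![a, b], Fin.forall_fin_two.2
    ⟨(gAlg_iff hc hP).2 ⟨a1, a2 ▸ h1⟩, (gAlg_iff hc hP).2 ⟨b1, b2 ▸ h2⟩⟩, a2, b2⟩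

theorem gLab {J : H Y →ₗ[ℂ] ℂ} {β : Stm.Co Y 8 →ₗ[ℂ] ℂ}
    (hβ : ∀ a, Stm.Null (Stm.cob a) → β a = J (cl a)) {B : LinearMap.BilinForm ℤ (Lk Y 4)}
    (hB : ∀ x y, (B x y : ℂ) = J (x.1 * y.1)) (hs : B.IsSymm) {η v : Lk Y 4} {g : Stm.Co Y 2}
    (hg : Stm.Null (Stm.cob g)) (hη : η.1 = cl g ^ 2) (h3 : B η η = 3) (h1 : P η.1) (h2 : P v.1)
    (sat : Lat.Sat (Submodule.span ℤ {η, v})) (pos : 0 < 3 * B v v - B v η ^ 2) :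
    ∃ e, GLab Hdg β g (3 * B v v - B v η ^ 2) e := by
  obtain ⟨e, e1, e2, e3⟩ := exists_pair hc hP h1 h2
  have he := fun i => (e1 i).1.1
  have k : ∀ i j (x y : Lk Y 4), cl (e i) = x.1 → cl (e j) = y.1 →
      β (Stm.cup (e i) (e j)) = B x y := fun i j x y ha hb => by
    obtain ⟨c1, c2⟩ := cyc_cup (he i) (he j)
    rw [hB, ← ha, ← hb, ← c2]
    exact hβ _ c1
  obtain ⟨c1, c2⟩ := cyc_cup hg hg
  refine ⟨e, e1, ⟨!![3, B v η; B v η, B v v], ?_, Ex.posDef pos, ?_⟩,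
    (inSpan_iff he e2 e3 c1 (c2.trans (by rw [hη, sq]))).2 (Submodule.subset_span (by simp)),
    fun x n hx hn hk => ?_⟩
  · refine Fin.forall_fin_two.2 ⟨Fin.forall_fin_two.2 ⟨?_, ?_⟩, Fin.forall_fin_two.2 ⟨?_, ?_⟩⟩
    exacts [(k _ _ _ _ e2 e2).trans (congrArg _ h3), (k _ _ _ _ e2 e3).trans
      (congrArg _ (hs.eq η v)), k _ _ _ _ e3 e2, k _ _ _ _ e3 e3]
  · rw [Matrix.det_fin_two_of, sq]
  · refine (inSpan_iff he e2 e3 (x := ⟨_, mem_Lk hx⟩) hx.1 rfl).2 (sat n _ hn ?_)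
    obtain ⟨k1, k2⟩ := cyc_lin hx.1 hx.1 n 0
    rw [zero_smul, add_zero, Int.cast_smul_eq_zsmul] at k1 k2
    exact (inSpan_iff he e2 e3 k1 (k2.trans (by
      rw [zero_smul, add_zero, Int.cast_smul_eq_zsmul]; rfl))).1 hk

theorem gRk {η v : Lk Y 4} (h1 : P η.1) (h2 : P v.1)
    (h : ∀ x : Lk Y 4, P x.1 → x ∈ Submodule.span ℤ {η, v}) : GRk Hdg := by
  obtain ⟨e, e1, e2, e3⟩ := exists_pair hc hP h1 h2
  exact ⟨e, e1, fun x hx => (inSpan_iff (fun i => (e1 i).1.1) e2 e3 (x := ⟨_, mem_Lk hx.1⟩) hx.1.1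
    rfl).2 (h _ ((gAlg_iff hc hP).1 hx).2)⟩

end gen

variable {F : MvPolynomial (Fin 6) ℂ}

/-- Cocycles of type `(2, 2)` on a quotient of the cone. -/
def G22 {Y : Type} [TopologicalSpace Y] (π : Stm.cone F → Y) (c : Stm.Co Y 4) : Prop :=
  Stm.Null (Stm.cob c) ∧ ∀ x : Stm.cone F, ∃ f : (Fin 5 → Fin 6 → ℂ) → ℂ,
    ContDiff ℝ (⊤ : ℕ∞) f ∧
    (∀ᶠ z : Fin 5 → Stm.cone F in 𝓝 fun _ => x, (c fun i => π (z i)) = f fun i => z i) ∧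
    ∀ (s : ℂ) (v : Fin 4 → Fin 6 → ℂ), (∀ i, ∑ j, v i j * eval x (pderiv j F) = 0) →
      Stm.form f x (s • v) = s ^ 2 * starRingEnd ℂ s ^ 2 * Stm.form f x v

theorem hd_iff (hs : Pub.IsSmoothForm F) (c : H (XF F)) :
    Hd F 2 2 c ↔ ∃ G, G22 (F := F) (Y := XF F) (Quo.mk _) G ∧ cl G = c := by
  have k : ∀ G : Stm.Co (XF F) 4, (∀ x, Mf.HdAt (fun x => (tn (Pub.cone F) x : Set (Fin 6 → ℂ)))
      (Quo.mk (scl (π₀ (Fin 6)))) 2 2 (L 4 G) x) ↔ _ := fun G =>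
    forall_congr' fun x => exists_congr fun f => and_congr_right' (and_congr
      (Filter.eventually_congr (.of_forall fun _ => Eq.congr_left (L_ofFn G _)))
      (forall₂_congr fun s v => imp_congr_left (forall_congr' fun i => pv_tn hs x.2)))
  refine ⟨fun ⟨a, h1, h2, h3⟩ => ?_, fun ⟨G, ⟨h1, h2⟩, h3⟩ => ?_⟩
  · obtain ⟨G, hG⟩ := exists_L (k := 4) h1
    exact ⟨G, ⟨cyc_iff.2 (hG ▸ a.2), (k G).1 (hG ▸ h3)⟩,
      (congrArg hcls hG).trans ((hcls_val a).trans h2)⟩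
  · exact ⟨⟨_, cyc_iff.1 h1⟩, isDeg_L G, (hcls_val _).symm.trans h3, (k G).2 h2⟩

theorem rel_eq (F : MvPolynomial (Fin 6) ℂ) :
    (fun x y : Stm.cone F => ∃ a, IsUnit a ∧ y.1 = scl (π₀ (Fin 6)) a x.1) =
      fun x y => ∃ t : ℂ, y.1 = t • x.1 :=
  funext₂ fun _ y => propext ⟨fun ⟨a, _, h⟩ => ⟨a (), h⟩, fun ⟨t, h⟩ => ⟨fun _ => t,
    unit_iff.2 fun _ e => y.2.1 (by rw [h, e, zero_smul]), h⟩⟩

theorem inC_of {d : ℤ} (h : GInC (G22 (F := F) (Y := XF F) (Quo.mk _)) d) : Stm.InC F d :=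
  have k : ∀ r r' : Stm.cone F → Stm.cone F → Prop, r = r' →
      GInC (G22 (Quot.mk r)) d → GInC (G22 (Quot.mk r')) d := fun _ _ e => e ▸ id
  k _ _ (rel_eq F) h

theorem rankTwo_of (h : GRk (G22 (F := F) (Y := XF F) (Quo.mk _))) : Stm.RankTwo F :=
  have k : ∀ r r' : Stm.cone F → Stm.cone F → Prop, r = r' →
      GRk (G22 (Quot.mk r)) → GRk (G22 (Quot.mk r')) := fun _ _ e => e ▸ id
  k _ _ (rel_eq F) h

theorem rk2 (hs : Pub.IsSmoothForm F) (h : Rk2 F) : Stm.RankTwo F :=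
  let ⟨_, _, h1, h2, h3⟩ := h
  rankTwo_of (gRk (fun _ => And.left) (hd_iff hs) h1 h2 h3)

end Vale.Agent.P287Q.Cub.Ey
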