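import Vale.Agent.P287Q.Cub.Ex3
import Vale.Agent.P287Q.Cub.S

/-!
# Exit, part 5: the statement from the main theorem
-/

set_option linter.style.haveILetI false

namespace Vale.Agent.P287Q.Cub

open Set MvPolynomial P291Z P269 P269.Mono Zc

variable {F : MvPolynomial (Fin 6) ℂ}

theorem Lab.stm (hF : F.IsHomogeneous 3) (hs : Pub.IsSmoothForm F) {d : ℤ} (h : Lab F d)
    (pos : 0 < d) : Stm.InC F d := by
  haveI := isAct_scl (π₀ (Fin 6))
  have q := qmF hF hs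
  haveI := q.cpt
  have c := cubF q hF hs
  have hh : hyp F ∈ Lk (XF F) 2 := ⟨c.int, c.lf.deg⟩
  have k : ∀ n : ℕ, n ≠ 2 → ∀ x : H (XF F), H.IsDeg (2 * n) x → ∃ s : ℂ, x = s • hyp F ^ n :=
    fun n hn x hx => by
      obtain rfl | ⟨j, s, e, rfl⟩ := amb_deg c.lf.deg (c.lf.amb _ (by
        change 2 * (n : ℤ) ≠ 4; omega) x hx) hx
      · exact ⟨0, (zero_smul _ _).symm⟩
      · exact ⟨s, by rw [show j = n by omega]⟩
  have h1 : ∃ b ∈ Lk (XF F) 8, Loc.intg (βF F) b = 1 := by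
    have ne : Nonempty (XF F) := by_contra fun e => by
      haveI := not_nonempty_iff.1 e
      obtain ⟨a, -, -, e⟩ := c.int
      have h3 : Loc.intg (βF F) (hyp F ^ 4) = 3 := c.deg
      rw [← e, Subsingleton.elim a 0, hcls_zero, zero_pow (by decide), map_zero] at h3
      norm_num at h3
    obtain ⟨b, b1, b2⟩ := (oriZ_qm q).gen ne.some
    exact ⟨hcls b, ⟨⟨b, b1.int, b1.cyc, rfl⟩, hcls_isDeg b1.deg⟩,
      (Loc.intg_hcls _ b1.cyc).trans b2⟩
  obtain ⟨B, η, v, b1, b2, b3, b4, b5, b6, b7, rfl⟩ := h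
  refine Ey.inC_of ⟨Ey.exists_pol (J := Loc.intg (βF F)) c.pz.int hh c.deg, fun β g hp => ?_⟩
  obtain ⟨p1, p2⟩ := Ey.of_pol (J := Loc.intg (βF F)) c.pz.int hh c.deg
    (fun x hx => by simpa using k 1 (by decide) x hx) (k 4 (by decide)) h1 hp
  exact Ey.gLab (fun _ => And.left) (Ey.hd_iff hs) p1 b1 b2 hp.2.2.1.1 (b3.trans p2.symm) b4 b5 b6
    b7 pos

/-- **The statement from the main theorem.** -/
theorem stm_of (hM : Main) (hF : F.IsHomogeneous 3) (hs : Stm.IsSmoothForm F)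
    (hr : Stm.IsRationalForm F) :
    ∃ d, Stm.InC F d ∧ (Stm.Admissible d ∨ (d = 2 ∨ d = 6) ∧ Stm.RankTwo F) := by
  obtain ⟨b⟩ := rat hF hr
  obtain ⟨d, h1, h2, h3⟩ := hM F hF hs b
  refine ⟨d, h1.stm hF hs h2.1, ?_⟩
  by_cases h6 : 6 < d
  · exact .inl (adm_of h2 h6)
  · exact .inr ⟨by have := h2.1; have := h2.2.1; omega, Ey.rk2 hs (h3.resolve_left h6)⟩

/-- The same with `C_2 = C_6 = ∅`. -/
theorem stm_of_d26 (hM : Main) (hD : D26) (hF : F.IsHomogeneous 3) (hs : Stm.IsSmoothForm F)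
    (hr : Stm.IsRationalForm F) : ∃ d, Stm.Admissible d ∧ Stm.InC F d := by
  obtain ⟨b⟩ := rat hF hr
  obtain ⟨d, h1, h2, -⟩ := hM F hF hs b
  have k2 : d ≠ 2 := fun e => (hD F hF hs).1 (e ▸ h1)
  have k6 : d ≠ 6 := fun e => (hD F hF hs).2 (e ▸ h1)
  exact ⟨d, adm_of h2 (by have := h2.1; have := h2.2.1; omega), h1.stm hF hs h2.1⟩

end Vale.Agent.P287Q.Cub
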