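import Vale.Agent.P287Q.Int.St
import Vale.Agent.P269.Orb.Quot

/-!
# P287, cubic fourfolds: quotients by a map of order three, the parity argument
-/

namespace Vale.Agent.P287Q.Cub

open P291Z P269 Zc Set Function Topology

variable {U X Y : Type} [TopologicalSpace U] [TopologicalSpace X] [TopologicalSpace Y]

section quot

variable {σ : C(U, U)} {q : C(U, X)} (h3 : ∀ u, σ (σ (σ u)) = u)
  (hf : ∀ u u', q u = q u' ↔ u = u' ∨ σ u = u' ∨ σ (σ u) = u') (hs : Surjective q)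
include h3

theorem p0_iter (n : ℕ) (u : U) : σ^[n % 3] u = σ^[n] u := by
  have : σ^[3] = id := funext h3
  conv_rhs => rw [← Nat.mod_add_div n 3, iterate_add_apply, iterate_mul, this, iterate_id, id]

include hf hs

theorem p0_isUC [CompactSpace U] [T2Space X] :
    Orb.IsUC (fun γ : Multiplicative (ZMod 3) => σ^[γ.toAdd.val]) q where
  one _ := rfl
  mul γ γ' u := by rw [toAdd_mul, ZMod.val_add, p0_iter h3, iterate_add_apply]
  cont_a _ := σ.continuous.iterate _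
  cont := q.continuous
  isOpen V hV := by
    rw [← (q.continuous.isClosedMap.isQuotientMap q.continuous hs).isOpen_preimage]
    have : q ⁻¹' (q '' V) = V ∪ σ ⁻¹' V ∪ σ ⁻¹' (σ ⁻¹' V) := by
      ext u
      simp only [mem_preimage, mem_image, mem_union]
      constructor
      · rintro ⟨v, h1, h2⟩
        rcases (hf _ _).1 h2.symm with rfl | rfl | rfl
        exacts [.inl (.inl h1), .inl (.inr h1), .inr h1]
      · rintro ((h | h) | h)
        exacts [⟨_, h, rfl⟩, ⟨_, h, ((hf _ _).2 (.inr (.inl rfl))).symm⟩,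
          ⟨_, h, ((hf _ _).2 (.inr (.inr rfl))).symm⟩]
    rw [this]
    exact (hV.union (hV.preimage σ.continuous)).union
      ((hV.preimage σ.continuous).preimage σ.continuous)
  fib u u' := (hf u u').trans ⟨by
    rintro (h | h | h)
    exacts [⟨.ofAdd 0, h⟩, ⟨.ofAdd 1, h⟩, ⟨.ofAdd 2, h⟩], by
    rintro ⟨γ, h⟩
    have h1 := ZMod.val_lt γ.toAdd
    generalize γ.toAdd.val = k at h h1
    interval_cases k
    exacts [.inl h, .inr (.inl h), .inr (.inr h)]⟩

/-- The sum over the orbit of a class comes from the quotient. -/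
theorem p0_inv [CompactSpace U] [T2Space U] [Nice X] {n : ℤ} {x : H U} (hx : H.IsDeg n x) :
    ∃ y, H.IsDeg n y ∧ x + H.map σ x + H.map σ (H.map σ x) = H.map q y := by
  have h := p0_isUC h3 hf hs
  obtain ⟨b, h1, h2, rfl⟩ := H.isDeg_iff.1 hx
  obtain ⟨c, h4, h5, -, h6⟩ := h.surj isClosed_univ hs.range_eq.ge h2 h1 (subset_univ _)
  have h7 := h6.hcls_eq (cocycle_pull q.continuous h5)
  have h8 := fun γ => cocycle_pull (h.cont_a γ) h1
  rw [Orb.avg_apply, hcls_smul _ (cocycle_sum fun γ _ => h8 γ), hcls_sum _ fun γ _ => h8 γ,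
    ← H.map_hcls q h5] at h7
  refine ⟨(3 : ℂ) • hcls c, (H.deg X n).smul_mem _ (hcls_isDeg h4), ?_⟩
  rw [H.map_smulC, ← h7, smul_smul, Fintype.card_multiplicative, ZMod.card, Nat.cast_ofNat,
    mul_inv_cancel₀ three_ne_zero, one_smul, H.map_map, H.map_hcls _ h1, H.map_hcls _ h1]
  conv_lhs => enter [1, 1]; rw [← pull_id b]
  exact (Fin.sum_univ_three fun i : Fin 3 => hcls (pull σ^[i.val] b)).symm

end quot

/-- `X` has a self-map of order three whose invariant classes in degree four are the multiples of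
the square of an invariant class `h` of degree two with `h ^ 4 ≠ 0`. -/
def Sym (X : Type) [TopologicalSpace X] : Prop :=
  ∃ (σ : C(X, X)) (h : H X), H.IsDeg 2 h ∧ h ^ 4 ≠ 0 ∧ H.map σ h = h ∧ (∀ u, σ (σ (σ u)) = u) ∧
    ∀ x, H.IsDeg 4 x → ∃ c : ℂ, x + H.map σ x + H.map σ (H.map σ x) = c • h ^ 2

theorem Sym.homeo (h : Sym Y) (e : X ≃ₜ Y) : Sym X := by
  obtain ⟨σ, h, h1, h2, h3, h4, h5⟩ := h
  have hb := H.map_bijective_of_homeomorph e
  have k : ∀ y, H.map ((e.symm : C(Y, X)).comp (σ.comp e)) (H.map (e : C(X, Y)) y) =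
      H.map (e : C(X, Y)) (H.map σ y) := fun y => by
    rw [H.map_map, H.map_map]
    exact congrArg (H.map · y) (ContinuousMap.ext fun x => e.apply_symm_apply _)
  refine ⟨(e.symm : C(Y, X)).comp (σ.comp e), H.map (e : C(X, Y)) h, h1.map _, fun h0 => h2 (hb.1 ?_),
    by rw [k, h3], fun u => by simp [h4], fun x hx => ?_⟩
  · rw [map_pow, h0, map_zero]
  · obtain ⟨c, hc⟩ := h5 _ (hx.map (e.symm : C(Y, X)))
    have e1 : H.map (e : C(X, Y)) (H.map (e.symm : C(Y, X)) x) = x := by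
      rw [H.map_map]; exact H.map_id e.symm_apply_apply x
    refine ⟨c, ?_⟩
    rw [← e1, k, k, ← map_add, ← map_add, hc, H.map_smulC, map_pow]

/-- The parity argument. -/
theorem Sym.parity (h : Sym X)
    (h1 : ∀ k : ℤ, k ≠ 4 → ∀ a c : H X, H.IsDeg k a → a ≠ 0 → H.IsDeg k c → ∃ t : ℂ, c = t • a)
    {I : H X →ₗ[ℂ] ℂ} {c : H X} (hc : H.IsDeg 2 c) (h3 : I (c ^ 2 * c ^ 2) = 3) :
    ∃ σ : C(X, X), ∀ x, H.IsDeg 4 x →
      I (x * x) + 2 * I (x * H.map σ x) = I (x * c ^ 2) * I (x * c ^ 2) := by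
  obtain ⟨σ, h, k1, k2, k3, k4, k5⟩ := h
  have k0 : h ≠ 0 := fun e => k2 (by rw [e]; simp)
  obtain ⟨t, rfl⟩ := h1 2 (by omega) h c k1 k0 hc
  have d4 : H.IsDeg 4 (h ^ 2) := by simpa [sq] using k1.mul k1
  have d8 : H.IsDeg (4 + 4) (h ^ 4) := by
    rw [show h ^ 4 = h ^ 2 * h ^ 2 from pow_add h 2 2]; exact d4.mul d4
  have hI : ∀ x y, H.IsDeg 4 x → H.IsDeg 4 y → H.map σ x * H.map σ y = x * y := fun x y hx hy => by
    obtain ⟨s, hs⟩ := h1 _ (by omega) _ _ d8 k2 (hx.mul hy)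
    rw [← map_mul, hs, H.map_smulC, map_pow, k3]
  have hη : H.map σ (h ^ 2) = h ^ 2 := by rw [map_pow, k3]
  refine ⟨σ, fun x hx => ?_⟩
  obtain ⟨a, ha⟩ := k5 x hx
  have x1 := hx.map σ
  have e3 : H.map σ (H.map σ (H.map σ x)) = x := by
    rw [H.map_map, H.map_map]; exact H.map_id k4 x
  have e1 : H.map σ x * h ^ 2 = x * h ^ 2 := by conv_lhs => rw [← hη, hI _ _ hx d4]
  have e2 : H.map σ (H.map σ x) * h ^ 2 = x * h ^ 2 := by conv_lhs => rw [← hη, hI _ _ x1 d4, e1]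
  have e4 : x * H.map σ (H.map σ x) = x * H.map σ x := by
    rw [← hI _ _ hx (x1.map σ), e3, hx.commute (by decide)]
  have f1 := congrArg (fun y => I (y * h ^ 2)) ha
  have f2 := congrArg (fun y => I (x * y)) ha
  simp only [add_mul, mul_add, e1, e2, e4, map_add, smul_mul_assoc, mul_smul_comm, map_smul,
    smul_pow, smul_eq_mul] at f1 f2 h3 ⊢
  have ht : t ≠ 0 := by rintro rfl; simp at h3
  have f3 : a = t ^ 2 * t ^ 2 * I (x * h ^ 2) := by
    linear_combination (-(t ^ 2 * t ^ 2) / 3) * f1 - a / 3 * h3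
  rw [f3] at f2
  linear_combination f2

end Vale.Agent.P287Q.Cub
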