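import Mathlib.RingTheory.MvPolynomial.Homogeneous
import Mathlib.RingTheory.Localization.FractionRing
import Mathlib.RingTheory.Localization.Integer
import Mathlib.RingTheory.Ideal.Quotient.Operations
import Mathlib.Analysis.Complex.Basic

/-!
# Homogenisation; an isomorphism of function fields in terms of forms
-/

namespace Vale.Agent.P287Q.Cub.Rat

open MvPolynomial

variable {σ A L : Type} [CommRing A] [Algebra ℂ A] [Field L] [Algebra ℂ L] {n n' N M : ℕ}

theorem aeval_smul {P : MvPolynomial σ ℂ} (h : P.IsHomogeneous N) (a : A) (v : σ → A) :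
    aeval (a • v) P = a ^ N * aeval v P := by
  rw [P.as_sum, map_sum, map_sum, Finset.mul_sum]
  refine Finset.sum_congr rfl fun α hα => ?_
  have e : ∑ i ∈ α.support, α i = N := by
    simpa [Finsupp.weight_apply, Finsupp.sum] using h (mem_support_iff.1 hα)
  simp only [aeval_monomial, Finsupp.prod, Pi.smul_apply, smul_eq_mul, mul_pow,
    Finset.prod_mul_distrib, Finset.prod_pow_eq_pow_sum, e]
  ring

theorem eval_smul {P : MvPolynomial σ ℂ} (h : P.IsHomogeneous N) (a : ℂ) (v : σ → ℂ) :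
    eval (a • v) P = a ^ N * eval v P := aeval_smul h a v

theorem eval_zero {P : MvPolynomial σ ℂ} (h : P.IsHomogeneous N) (hN : N ≠ 0) : eval 0 P = 0 := by
  have := eval_smul h 0 0
  rwa [zero_smul, zero_pow hN, zero_mul] at this

/-- The homogenisation in degree `N`. -/
noncomputable def hom (N : ℕ) (p : MvPolynomial (Fin n) ℂ) : MvPolynomial (Fin (n + 1)) ℂ :=
  ∑ k ∈ Finset.range (N + 1), X 0 ^ (N - k) * rename Fin.succ (homogeneousComponent k p)

theorem hom_isHom (p : MvPolynomial (Fin n) ℂ) : (hom N p).IsHomogeneous N :=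
  .sum _ _ _ fun k hk => by
    have := ((isHomogeneous_X ℂ (0 : Fin (n + 1))).pow (N - k)).mul
      ((homogeneousComponent_isHomogeneous k p).rename_isHomogeneous (f := Fin.succ))
    rwa [one_mul, Nat.sub_add_cancel (Nat.lt_succ_iff.1 (Finset.mem_range.1 hk))] at this

theorem aeval_hom {p : MvPolynomial (Fin n) ℂ} (h : p.totalDegree ≤ N) (z : Fin n → A) :
    aeval (Fin.cons 1 z : Fin (n + 1) → A) (hom N p) = aeval z p := by
  have e : ∑ k ∈ Finset.range (N + 1), homogeneousComponent k p = p := by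
    rw [← Finset.sum_subset (Finset.range_subset_range.2 (Nat.succ_le_succ h)) fun k _ hk =>
      homogeneousComponent_eq_zero _ _ (by simpa using hk), sum_homogeneousComponent]
  conv_rhs => rw [← e]
  simp only [hom, map_sum, map_mul, map_pow, aeval_X, Fin.cons_zero, one_pow, one_mul, aeval_rename]
  rfl

/-- The affine coordinates. -/
noncomputable abbrev aff (n : ℕ) : Fin (n + 1) → MvPolynomial (Fin n) ℂ := Fin.cons 1 X

theorem aeval_aff (z : Fin n → A) (i) : aeval z (aff n i) = (Fin.cons 1 z : Fin (n + 1) → A) i := by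
  refine Fin.cases ?_ (fun i => ?_) i <;> simp

/-- The polynomials `P` describe the point `α` in terms of the point `β`. -/
structure Den (α : MvPolynomial (Fin n') ℂ →ₐ[ℂ] L) (β : MvPolynomial (Fin n) ℂ →ₐ[ℂ] L) (N : ℕ)
    (P : Fin (n' + 1) → MvPolynomial (Fin n) ℂ) : Prop where
  ne : β (P 0) ≠ 0
  eq : ∀ i, β (P i) = β (P 0) * α (aff n' i)
  deg : ∀ i, (P i).totalDegree ≤ N
  pos : N ≠ 0

theorem exists_den (α : MvPolynomial (Fin n') ℂ →ₐ[ℂ] L) {β : MvPolynomial (Fin n) ℂ →ₐ[ℂ] L}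
    (h : ∀ z, ∃ a b, β b ≠ 0 ∧ β a = β b * z) : ∃ N P, Den α β N P := by
  classical
  choose a b h1 h2 using fun i => h (α (X i))
  let P : Fin (n' + 1) → MvPolynomial (Fin n) ℂ :=
    Fin.cons (∏ i, b i) fun i => a i * ∏ j ∈ Finset.univ.erase i, b j
  refine ⟨(Finset.univ.sup fun i => (P i).totalDegree) + 1, P, ?_, Fin.cases (by simp) fun i => ?_,
    fun i => (Finset.le_sup (f := fun i => (P i).totalDegree) (Finset.mem_univ i)).trans
      (Nat.le_succ _), Nat.succ_ne_zero _⟩
  · simpa [P, Finset.prod_ne_zero_iff] using h1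
  · simp only [P, Fin.cons_succ, Fin.cons_zero, map_mul, h2]
    rw [← Finset.mul_prod_erase _ b (Finset.mem_univ i), map_mul]
    ring

variable {α : MvPolynomial (Fin n') ℂ →ₐ[ℂ] L} {β : MvPolynomial (Fin n) ℂ →ₐ[ℂ] L}
  {P : Fin (n' + 1) → MvPolynomial (Fin n) ℂ} {Q : Fin (n + 1) → MvPolynomial (Fin n') ℂ}

/-- The forms attached to `P`. -/
noncomputable def frm (N : ℕ) (P : Fin (n' + 1) → MvPolynomial (Fin n) ℂ) (i : Fin (n' + 1)) :
    MvPolynomial (Fin (n + 1)) ℂ := X 0 * hom N (P i)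

theorem frm_isHom (i) : (frm N P i).IsHomogeneous (N + 1) :=
  add_comm 1 N ▸ (isHomogeneous_X ℂ 0).mul (hom_isHom _)

/-- The factor of the composition. -/
noncomputable def fac (N M : ℕ) (P : Fin (n' + 1) → MvPolynomial (Fin n) ℂ)
    (Q : Fin (n + 1) → MvPolynomial (Fin n') ℂ) : MvPolynomial (Fin (n + 1)) ℂ :=
  hom N (P 0) * aeval (frm N P) (hom M (Q 0))

theorem fac_isHom : (fac N M P Q).IsHomogeneous ((N + 1) * (M + 1) - 1) := by
  have := (hom_isHom (N := N) (P 0)).mul ((hom_isHom (N := M) (Q 0)).aeval (frm N P) frm_isHom)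
  rwa [show N + (N + 1) * M = (N + 1) * (M + 1) - 1 by rw [Nat.mul_succ]; omega] at this

namespace Den

variable (hP : Den α β N P)
include hP

theorem aeval_frm (z : Fin n → A) (i) :
    aeval (Fin.cons 1 z : Fin (n + 1) → A) (frm N P i) = aeval z (P i) := by
  rw [frm, map_mul, aeval_hom (hP.deg i), aeval_X, Fin.cons_zero, one_mul]

theorem map_aeval {G : MvPolynomial (Fin (n' + 1)) ℂ} {k : ℕ} (h : G.IsHomogeneous k) :
    β (aeval P G) = β (P 0) ^ k * α (aeval (aff n') G) := by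
  rw [← AlgHom.comp_apply, comp_aeval, ← AlgHom.comp_apply α, comp_aeval, ← aeval_smul h]
  exact congrArg (aeval · G) (funext hP.eq)

theorem gv_frm {y : Fin (n + 1) → ℂ} (h : y 0 ≠ 0) : ∃ w : Fin n → ℂ, y = y 0 • Fin.cons 1 w ∧
    (fun i => eval y (frm N P i)) = y 0 ^ (N + 1) • fun i => eval w (P i) := by
  have e : y = y 0 • Fin.cons 1 fun i => y i.succ / y 0 :=
    funext (Fin.cases (by simp) fun i => by simp [mul_div_cancel₀ _ h])
  refine ⟨_, e, funext fun i => ?_⟩
  conv_lhs => rw [e, eval_smul (frm_isHom i)]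
  exact congrArg _ (hP.aeval_frm _ i)

omit hP in
theorem gv_zero {y : Fin (n + 1) → ℂ} (h : y 0 = 0) : (fun i => eval y (frm N P i)) = 0 :=
  funext fun i => by simp [frm, h]

theorem on (hβ : Function.Injective β) {G : MvPolynomial (Fin (n' + 1)) ℂ} {k : ℕ}
    (h : G.IsHomogeneous k) (hk : k ≠ 0) (h0 : α (aeval (aff n') G) = 0) (y) :
    eval (fun i => eval y (frm N P i)) G = 0 := by
  by_cases hy : y 0 = 0
  · rw [gv_zero hy, eval_zero h hk]
  obtain ⟨w, -, e⟩ := hP.gv_frm hy
  have k1 : aeval P G = 0 := hβ (by rw [hP.map_aeval h, h0, mul_zero, map_zero])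
  have k2 := congrArg (aeval w) k1
  rw [← AlgHom.comp_apply, comp_aeval, map_zero] at k2
  rw [e, eval_smul h]
  exact mul_eq_zero_of_right _ k2

variable (hQ : Den β α M Q)
include hQ

theorem map_hom (j) : β (aeval P (hom M (Q j))) = β (P 0) ^ M * α (Q 0) * β (aff n j) := by
  rw [hP.map_aeval (hom_isHom _), aeval_hom (hQ.deg j), aeval_X_left_apply, hQ.eq j, mul_assoc]

theorem fac_ne : fac N M P Q ≠ 0 := fun e => by
  have k := congrArg (fun p => β (aeval (aff n) p)) e
  simp only [fac, map_mul, map_zero] at k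
  rw [aeval_hom (hP.deg 0), aeval_X_left_apply, ← AlgHom.comp_apply (aeval _), comp_aeval,
    show (fun i => aeval (aff n) (frm N P i)) = P from funext fun i => by
      rw [hP.aeval_frm, aeval_X_left_apply], hP.map_hom hQ] at k
  simp [hP.ne, hQ.ne] at k

theorem comp (y : Fin (n + 1) → ℂ)
    (hy : ∀ w, y 0 ≠ 0 → y = y 0 • Fin.cons 1 w → ∀ p, β p = 0 → eval w p = 0) :
    (fun j => eval (fun i => eval y (frm N P i)) (frm M Q j)) = eval y (fac N M P Q) • y := by
  have e0 : eval y (fac N M P Q) =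
      eval y (hom N (P 0)) * eval (fun i => eval y (frm N P i)) (hom M (Q 0)) := by
    rw [fac, map_mul]
    exact congrArg _ (AlgHom.congr_fun (comp_aeval (frm N P) (aeval y)) _)
  rw [e0]
  by_cases h : y 0 = 0
  · rw [gv_zero h, eval_zero (hom_isHom _) hQ.pos, mul_zero, zero_smul]
    exact gv_zero rfl
  obtain ⟨w, e, e'⟩ := hP.gv_frm h
  funext j
  have k := hy w h e (aeval P (hom M (Q j)) - aff n j * aeval P (hom M (Q 0))) (by
    rw [map_sub, map_mul, hP.map_hom hQ, hP.map_hom hQ]; simp [mul_comm])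
  have c : ∀ G, eval w (aeval P G) = eval (fun i => eval w (P i)) G := fun G =>
    AlgHom.congr_fun (comp_aeval P (aeval w)) G
  have a : eval w (aff n j) = (Fin.cons 1 w : Fin (n + 1) → ℂ) j := aeval_aff w j
  have b : eval (Fin.cons 1 w) (hom N (P 0)) = eval w (P 0) := aeval_hom (hP.deg 0) w
  rw [map_sub, map_mul, c, c, a, sub_eq_zero] at k
  rw [e', eval_smul (frm_isHom j), eval_smul (hom_isHom _), frm, map_mul, eval_X, k]
  generalize y 0 = t at e
  subst e
  rw [eval_smul (hom_isHom _), b]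
  simp only [Pi.smul_apply, smul_eq_mul]
  ring

end Den

theorem frac {R K : Type} [CommRing R] [Algebra ℂ R] [CommRing K] [Algebra ℂ K] [Algebra R K]
    [IsScalarTower ℂ R K] [IsFractionRing R K] (φ : K ≃ₐ[ℂ] L) (π : A →ₐ[ℂ] R)
    (hπ : Function.Surjective π) (z : L) : ∃ a b, φ (algebraMap R K (π b)) ≠ 0 ∧
      φ (algebraMap R K (π a)) = φ (algebraMap R K (π b)) * z := by
  obtain ⟨⟨a, b⟩, h⟩ := IsLocalization.surj (nonZeroDivisors R) (φ.symm z)
  obtain ⟨a, rfl⟩ := hπ a
  obtain ⟨b', hb⟩ := hπ b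
  refine ⟨a, b', hb ▸ ((IsLocalization.map_units K b).map φ).ne_zero, ?_⟩
  rw [← h, hb, map_mul, φ.apply_symm_apply, mul_comm]

end Vale.Agent.P287Q.Cub.Rat
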