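import Vale.Agent.P287Q.Cub.Defs
import Vale.Agent.P287Q.Cub.Rat0

/-!
# Entry: a rational cubic has mutually inverse parametrisations by forms
-/

namespace Vale.Agent.P287Q.Cub

open MvPolynomial Cub.Rat

variable {F : MvPolynomial (Fin 6) ℂ}

/-- **RAT** -/
theorem rat (hF : F.IsHomogeneous 3) (h : Pub.IsRationalForm F) : Nonempty (Bir F) := by
  obtain ⟨φ⟩ := h
  let I := Ideal.span {aeval (aff 5) F}
  let L := FractionRing (MvPolynomial (Fin 4) ℂ)
  let R := MvPolynomial (Fin 5) ℂ ⧸ I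
  let α : MvPolynomial (Fin 5) ℂ →ₐ[ℂ] L := φ.toAlgHom.comp
    ((IsScalarTower.toAlgHom ℂ R (FractionRing R)).comp (Ideal.Quotient.mkₐ ℂ I))
  let β := IsScalarTower.toAlgHom ℂ (MvPolynomial (Fin 4) ℂ) L
  have hβ : Function.Injective β := IsFractionRing.injective _ _
  have hα : ∀ p, α p = 0 ↔ p ∈ I := fun p =>
    ((map_eq_zero_iff φ φ.injective).trans (map_eq_zero_iff _
      (IsFractionRing.injective R (FractionRing R)))).trans Ideal.Quotient.eq_zero_iff_mem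
  obtain ⟨N, P, hP⟩ := exists_den α (β := β)
    (frac (R := MvPolynomial (Fin 4) ℂ) (K := L) AlgEquiv.refl (AlgHom.id ℂ _)
      Function.surjective_id)
  obtain ⟨M, Q, hQ⟩ := exists_den β (β := α)
    (frac (R := R) φ (Ideal.Quotient.mkₐ ℂ I) (Ideal.Quotient.mkₐ_surjective ℂ I))
  refine ⟨⟨N + 1, M + 1, frm N P, frm M Q, fac N M P Q, fac M N Q P, N.succ_pos, M.succ_pos,
    frm_isHom, frm_isHom, fac_isHom, mul_comm (M + 1) (N + 1) ▸ fac_isHom, hP.fac_ne hQ,
    hP.on hβ hF three_ne_zero ((hα _).2 (Ideal.mem_span_singleton_self _)),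
    fun y => hP.comp hQ y fun w _ _ p hp => ?_, fun x hx => hQ.comp hP x fun w h0 e p hp => ?_⟩⟩
  · rw [hβ (hp.trans (map_zero β).symm), map_zero]
  · obtain ⟨k, rfl⟩ := Ideal.mem_span_singleton'.1 ((hα p).1 hp)
    rw [e, eval_smul hF] at hx
    have k1 : eval w (aeval (aff 5) F) = eval (Fin.cons 1 w) F :=
      (AlgHom.congr_fun (comp_aeval (aff 5) (aeval w)) F).trans
        (congrArg (aeval · F) (funext (aeval_aff w)))
    rw [map_mul, k1, (mul_eq_zero.1 hx).resolve_left (pow_ne_zero _ h0), mul_zero]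

namespace Bir

variable (b : Bir F)

theorem g_smul (a : ℂ) (y) : gv b.g (a • y) = a ^ b.e • gv b.g y :=
  funext fun i => eval_smul (b.g_hom i) a y

theorem h_smul (a : ℂ) (x) : gv b.h (a • x) = a ^ b.m • gv b.h x :=
  funext fun i => eval_smul (b.h_hom i) a x

theorem g_zero : gv b.g 0 = 0 := by
  have := b.g_smul 0 0
  rwa [zero_smul, zero_pow b.e_pos.ne', zero_smul] at this

theorem h_zero : gv b.h 0 = 0 := by
  have := b.h_smul 0 0
  rwa [zero_smul, zero_pow b.m_pos.ne', zero_smul] at this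

theorem g_ne {y} (hy : y ≠ 0) (h : eval y b.c ≠ 0) : gv b.g y ≠ 0 := fun e =>
  smul_ne_zero h hy (by rw [← b.hg, e, b.h_zero])

theorem h_ne {x} (hx : x ∈ Pub.cone F) (h : eval x b.c' ≠ 0) : gv b.h x ≠ 0 := fun e =>
  smul_ne_zero h hx.1 (by rw [← b.gh x hx.2, e, b.g_zero])

theorem g_mem {y} (h : gv b.g y ≠ 0) : gv b.g y ∈ Pub.cone F := ⟨h, b.on y⟩

theorem c'_g {y} (h : gv b.g y ≠ 0) : eval (gv b.g y) b.c' = eval y b.c ^ b.e := by
  have k := b.gh _ (b.on y)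
  rw [b.hg, b.g_smul] at k
  exact (smul_left_injective ℂ h k).symm

theorem c_h {x} (hx : eval x F = 0) (h : gv b.h x ≠ 0) :
    eval (gv b.h x) b.c = eval x b.c' ^ b.m := by
  have k := b.hg (gv b.h x)
  rw [b.gh x hx, b.h_smul] at k
  exact (smul_left_injective ℂ h k).symm

theorem exists_c : ∃ y ≠ 0, eval y b.c ≠ 0 := by
  by_contra k
  push Not at k
  refine mul_ne_zero b.c_ne (X_ne_zero (0 : Fin 5)) (MvPolynomial.funext fun y => ?_)
  by_cases h : y = 0
  · simp [h]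
  · simp [k y h]

theorem exists_c' : ∃ x ∈ Pub.cone F, eval x b.c' ≠ 0 :=
  let ⟨_, h1, h2⟩ := b.exists_c
  ⟨_, b.g_mem (b.g_ne h1 h2), b.c'_g (b.g_ne h1 h2) ▸ pow_ne_zero _ h2⟩

end Bir

end Vale.Agent.P287Q.Cub
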